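import Vale.Agent.P096.Two.Statement

/-!
P096: the strong Kadison-Kastler statement for semifinite algebras. A von Neumann algebra is
semifinite iff it has projections with orthogonal central supports of total one whose corners have
faithful normal tracial states (take a maximal family of centrally orthogonal countably
decomposable finite projections).
-/

namespace Vale.Agent.P096.Semi

universe u

variable (H : Type u) [NormedAddCommGroup H] [InnerProductSpace ℂ H] [CompleteSpace H]

/-- `M` has a family of projections, onto the `K i`, that are centrally orthogonal
(`P_i M P_j = 0`) and of total central support one (only zero in the commutant vanishes on all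
`K i`), each with a corner algebra that has a faithful normal tracial state. -/
def IsSemifinite (M : VonNeumannAlgebra H) : Prop :=
  ∃ (ι : Type u) (K : ι → Submodule ℂ H) (_ : ∀ i, CompleteSpace (K i))
    (A : ∀ i, VonNeumannAlgebra (K i)),
    (∀ i, (K i).starProjection ∈ M) ∧
      (∀ i j, i ≠ j → ∀ x ∈ M, (K i).starProjection * x * (K j).starProjection = 0) ∧
      (∀ a ∈ M.commutant, (∀ i, ∀ k ∈ K i, a k = 0) → a = 0) ∧
      ∀ i, Two.IsCorner H M (K i) (A i) ∧ ∃ ξ : ℕ → K i, Lit.IsFaithfulTrace (K i) (A i) ξ

/-- Close algebras, one of them semifinite, are conjugate by a unitary near the identity, with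
absolute constants. -/
def Target : Prop :=
  ∃ δ C : ℝ, 0 < δ ∧ ∀ (H : Type u) [NormedAddCommGroup H] [InnerProductSpace ℂ H]
    [CompleteSpace H] (M N : VonNeumannAlgebra H) (γ : ℝ),
    IsSemifinite H M → γ < δ → Lit.IsClose H M N γ → NearConj M N (C * γ)

end Vale.Agent.P096.Semi
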