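import Vale.Agent.P096.Two.Reduce
import Vale.Agent.P096.Semi.Statement

/-!
One full corner with a faithful tracial state: conjugacy from the finite case. Type II factors
are semifinite in the sense of the statement.
-/

namespace Vale.Agent.P096.Semi

open Vale.Agent.P096.Two

universe u

variable {H : Type u} [NormedAddCommGroup H] [InnerProductSpace ℂ H] [CompleteSpace H]

theorem eq_corner {M : VonNeumannAlgebra H} {K : Submodule ℂ H} [CompleteSpace K]
    {A : VonNeumannAlgebra K} (hP : K.starProjection ∈ M) (hA : IsCorner H M K A) :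
    A = corner K M :=
  SetLike.ext fun x => (hA x).trans (isCorner_corner K M hP x).symm

/-- An algebra with one full corner that has a faithful tracial state, from the finite case. -/
theorem nearConj_of_full
    (hT : ∃ δ C : ℝ, 0 < δ ∧ 0 ≤ C ∧ ∀ (H : Type u) [NormedAddCommGroup H]
      [InnerProductSpace ℂ H] [CompleteSpace H] (M N : VonNeumannAlgebra H) (γ : ℝ),
      (∃ ξ, Lit.IsFaithfulTrace H M ξ) → γ < δ → Lit.IsClose H M N γ → NearConj M N (C * γ)) :
    ∃ δ C : ℝ, 0 < δ ∧ 0 ≤ C ∧ ∀ (H : Type u) [NormedAddCommGroup H] [InnerProductSpace ℂ H]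
      [CompleteSpace H] (M N : VonNeumannAlgebra H) (K : Submodule ℂ H) [CompleteSpace K] (γ : ℝ),
      K.starProjection ∈ M → Two.Full M K →
      (∃ ξ : ℕ → K, Lit.IsFaithfulTrace K (corner K M) ξ) →
      γ < δ → Lit.IsClose H M N γ → NearConj M N (C * γ) := by
  obtain ⟨δ, C, hδ, hC, hT⟩ := hT
  obtain ⟨δ₁, L, hδ₁, hL, hcc⟩ := conj_of_corner.{u} C hC
  refine ⟨min δ₁ (δ / 700), L, by positivity, hL, ?_⟩
  intro H _ _ _ M N K _ γ hPM hF hξ hlt hclose
  simp only [lt_min_iff] at hlt
  exact hcc H M N K γ hF hPM hlt.1 hclose fun N₁ _ hcl =>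
    hT K (corner K M) (corner K N₁) (700 * γ) hξ (by linarith [hlt.2]) hcl

/-- One full corner with a faithful tracial state makes an algebra semifinite. -/
theorem isSemifinite_of_full {M : VonNeumannAlgebra H} {K : Submodule ℂ H} [hK : CompleteSpace K]
    {A : VonNeumannAlgebra K} (hP : K.starProjection ∈ M) (hF : Two.Full M K)
    (hA : IsCorner H M K A) (hξ : ∃ ξ : ℕ → K, Lit.IsFaithfulTrace K A ξ) : IsSemifinite H M :=
  ⟨PUnit, fun _ => K, fun _ => hK, fun _ => A, fun _ => hP,
    fun i j hij => absurd (Subsingleton.elim i j) hij,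
    fun a ha h0 => hF a ha
      (ContinuousLinearMap.ext fun v => h0 PUnit.unit _ (K.starProjection_apply_mem v)),
    fun _ => ⟨hA, hξ⟩⟩

/-- A type II factor with separable predual is semifinite in this sense. -/
theorem isSemifinite_of_typeTwo {M : VonNeumannAlgebra H} (h : Two.IsTypeTwoFactor H M) :
    IsSemifinite H M := by
  obtain ⟨hF, K, hKc, A, hK, hPM, hA, ⟨-, -, hA1⟩, -⟩ := h
  have := hKc
  exact isSemifinite_of_full hPM (full_of_factor hF hK hPM) hA hA1

/-- The semifinite statement contains the one for type II factors. -/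
theorem target_two (h : Target.{u}) : Two.Target.{u} := by
  obtain ⟨δ, C, hδ, h⟩ := h
  exact ⟨δ, C, hδ, fun H _ _ _ M N γ hM => h H M N γ (isSemifinite_of_typeTwo hM)⟩

end Vale.Agent.P096.Semi
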