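import Vale.Agent.P096.Semi.Partner
import Vale.Agent.P096.Semi.Reduce

/-!
P096: the statement for an algebra with one full finite corner gives it for an algebra with a
centrally orthogonal family of finite corners of full total support.
-/

open scoped InnerProductSpace
open Filter Topology
open Vale.Agent.P096.Two

namespace Vale.Agent.P096.Semi

universe u v

variable {H : Type u} [NormedAddCommGroup H] [InnerProductSpace ℂ H] [CompleteSpace H]
  {ι : Type v}

/-- The projection on the hull of a subspace is central if the projection on it is in `M`. -/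
lemma hull_central {M : VonNeumannAlgebra H} {K : Submodule ℂ H} [CompleteSpace K]
    (hP : K.starProjection ∈ M) : CProj M (hull M K).starProjection := by
  refine ⟨isStarProjection_starProjection, ?_, fun x hx =>
    (VonNeumannAlgebra.mem_commutant_iff.1 (hull_mem_commutant M K) x hx).symm⟩
  rw [← SetLike.mem_coe, ← M.centralizer_centralizer]
  intro b hb'
  have hb : b ∈ M.commutant := VonNeumannAlgebra.mem_commutant_iff.2 hb'
  have hc : ∀ c ∈ M.commutant, ∀ n ∈ M, ∀ k ∈ K, c (n k) ∈ hull M K := fun c hc n hn k hk => by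
    rw [show c (n k) = (c * n) k from rfl, ← VonNeumannAlgebra.mem_commutant_iff.1 hc n hn]
    refine mem_hull hn ?_
    have e := DFunLike.congr_fun (comm_proj K hP hc) k
    rw [mul_apply_eq_comp, mul_apply_eq_comp, Submodule.starProjection_eq_self_iff.2 hk] at e
    exact Submodule.starProjection_eq_self_iff.1 e.symm
  exact hull_comm (hc b hb) (hc _ (star_mem hb))

lemma hull_mul_proj (M : VonNeumannAlgebra H) (K : Submodule ℂ H) [CompleteSpace K] :
    (hull M K).starProjection * K.starProjection = K.starProjection :=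
  ContinuousLinearMap.ext fun x => Submodule.starProjection_eq_self_iff.2
    (mem_hull (one_mem M) (K.starProjection_apply_mem x))

/-- The hulls of a centrally orthogonal family with full support form blocks. -/
lemma hull_blocks (M : VonNeumannAlgebra H) (K : ι → Submodule ℂ H) [∀ i, CompleteSpace (K i)]
    (ho : ∀ i j, i ≠ j → ∀ x ∈ M, (K i).starProjection * x * (K j).starProjection = 0)
    (hfull : ∀ a ∈ M.commutant, (∀ i, a * (K i).starProjection = 0) → a = 0) :
    Blocks fun i => (hull M (K i)).starProjection := by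
  refine ⟨fun i => isStarProjection_starProjection, fun i j hij => ?_, fun A hA => ?_⟩
  · refine ContinuousLinearMap.ext fun w => ?_
    rw [mul_apply_eq_comp, zero_apply,
      Submodule.starProjection_apply_eq_zero_iff, Submodule.mem_orthogonal]
    intro y hy
    have key : ∀ m ∈ M, ∀ l ∈ K j, ∀ y ∈ hull M (K i), ⟪m l, y⟫_ℂ = 0 := by
      intro m hm l hl y hy
      have hle : hull M (K i) ≤ (Submodule.span ℂ {m l})ᗮ := by
        refine Submodule.topologicalClosure_minimal _ (Submodule.span_le.2 ?_)
          (Submodule.isClosed_orthogonal _)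
        rintro _ ⟨n, hn, k, hk, rfl⟩
        refine Submodule.mem_orthogonal_singleton_iff_inner_right.2 ?_
        have e := DFunLike.congr_fun (ho j i (Ne.symm hij) (star m * n)
          (mul_mem (star_mem hm) hn)) k
        rw [mul_apply_eq_comp, mul_apply_eq_comp, mul_apply_eq_comp, zero_apply,
          Submodule.starProjection_eq_self_iff.2 hk] at e
        rw [← Submodule.starProjection_eq_self_iff.2 hl,
          ← ContinuousLinearMap.adjoint_inner_right, ← ContinuousLinearMap.star_eq_adjoint,
          Submodule.inner_starProjection_left_eq_right, e, inner_zero_right]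
      exact Submodule.mem_orthogonal_singleton_iff_inner_right.1 (hle hy)
    have hle : hull M (K j) ≤ (Submodule.span ℂ {y})ᗮ := by
      refine Submodule.topologicalClosure_minimal _ (Submodule.span_le.2 ?_)
        (Submodule.isClosed_orthogonal _)
      rintro _ ⟨m, hm, l, hl, rfl⟩
      exact Submodule.mem_orthogonal_singleton_iff_inner_left.2 (key m hm l hl y hy)
    exact Submodule.mem_orthogonal_singleton_iff_inner_right.1
      (hle ((hull M (K j)).starProjection_apply_mem w))
  · set S : Submodule ℂ H :=
      (Submodule.span ℂ {x | ∃ i, x ∈ hull M (K i)}).topologicalClosure with hS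
    have : CompleteSpace S := (Submodule.isClosed_topologicalClosure _).completeSpace_coe
    have hmem : ∀ i, ∀ x ∈ hull M (K i), x ∈ S := fun i x hx =>
      Submodule.le_topologicalClosure _ (Submodule.subset_span ⟨i, hx⟩)
    have hinv : ∀ m ∈ M, ∀ x ∈ S, m x ∈ S := fun m hm x hx => by
      have h : S ≤ S.comap m.toLinearMap := by
        refine Submodule.topologicalClosure_minimal _ (Submodule.span_le.2 ?_)
          ((Submodule.isClosed_topologicalClosure _).preimage m.continuous)
        rintro x ⟨i, hx⟩
        exact hmem i _ (hull_inv (fun n hn k hk => mem_hull (mul_mem hm hn) hk) hx)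
      exact h hx
    have hq : S.starProjection ∈ M.commutant := by
      refine VonNeumannAlgebra.mem_commutant_iff.2 fun m hm => ContinuousLinearMap.ext fun x => ?_
      rw [mul_apply_eq_comp, mul_apply_eq_comp]
      refine (Submodule.eq_starProjection_of_mem_orthogonal
        (hinv m hm _ (S.starProjection_apply_mem x)) ?_).symm
      rw [← map_sub, Submodule.mem_orthogonal]
      intro y hy
      rw [← ContinuousLinearMap.adjoint_inner_left, ← ContinuousLinearMap.star_eq_adjoint]
      exact Submodule.inner_right_of_mem_orthogonal (hinv _ (star_mem hm) y hy)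
        (S.sub_starProjection_mem_orthogonal x)
    have hq1 : S.starProjection = 1 := by
      refine (sub_eq_zero.1 (hfull _ (sub_mem (one_mem _) hq) fun i => ?_)).symm
      refine ContinuousLinearMap.ext fun x => ?_
      rw [mul_apply_eq_comp, sub_apply, one_apply_eq_self, Submodule.starProjection_eq_self_iff.2
        (hmem i _ (mem_hull (n := 1) (one_mem M) ((K i).starProjection_apply_mem x)) :
          (K i).starProjection x ∈ S), sub_self, zero_apply]
    refine ContinuousLinearMap.ext fun x => ?_
    have hle : S ≤ LinearMap.ker A.toLinearMap := by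
      refine Submodule.topologicalClosure_minimal _ (Submodule.span_le.2 ?_) A.isClosed_ker
      rintro y ⟨i, hy⟩
      show A y = 0
      rw [← Submodule.starProjection_eq_self_iff.2 hy]
      exact DFunLike.congr_fun (hA i) y
    have hx : x ∈ S := by
      rw [← Submodule.starProjection_eq_self_iff, hq1]; rfl
    exact hle hx

/-- The hypothesis: one corner, full, with a faithful tracial state. -/
def FullCornerConj (δ C : ℝ) : Prop :=
  ∀ (H : Type u) [NormedAddCommGroup H] [InnerProductSpace ℂ H] [CompleteSpace H]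
    (M N : VonNeumannAlgebra H) (K : Submodule ℂ H) [CompleteSpace K] (γ : ℝ),
    K.starProjection ∈ M → Full M K → (∃ ξ : ℕ → K, Lit.IsFaithfulTrace K (corner K M) ξ) →
    γ < δ → Lit.IsClose H M N γ → NearConj M N (C * γ)

/-- One piece: on the range of a central projection. -/
lemma piece {δ C : ℝ} (h : FullCornerConj.{u} δ C) (M N : VonNeumannAlgebra H)
    (K L : Submodule ℂ H) [CompleteSpace K] [CompleteSpace L]
    (hP : K.starProjection ∈ M) (hLM : CProj M L.starProjection) (hLN : CProj N L.starProjection)
    (hKL : L.starProjection * K.starProjection = K.starProjection)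
    (hfull : ∀ a ∈ M.commutant, a * L.starProjection = a → a * K.starProjection = 0 → a = 0)
    {A : VonNeumannAlgebra K} (hA : IsCorner H M K A) (ht : ∃ ξ, Lit.IsFaithfulTrace K A ξ)
    {γ : ℝ} (hγ : γ < δ) (hc : Lit.IsClose H M N γ) :
    NearConj (corner L M) (corner L N) (C * γ) := by
  have hML := isCorner_corner L M hLM.mem
  have hNL := isCorner_corner L N hLN.mem
  have hle : K ≤ L := fun k hk => by
    refine Submodule.starProjection_eq_self_iff.1 ?_
    have e := DFunLike.congr_fun hKL k
    rwa [mul_apply_eq_comp, Submodule.starProjection_eq_self_iff.2 hk] at e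
  set K' : Submodule ℂ L := K.comap L.subtype with hK'
  have hKc : IsClosed (K : Set H) := (completeSpace_coe_iff_isComplete.1 ‹CompleteSpace K›).isClosed
  have hK'c : IsClosed (K' : Set L) := hKc.preimage continuous_subtype_val
  have : CompleteSpace K' := hK'c.completeSpace_coe
  have hproj : ∀ x : L, ((K'.starProjection x : L) : H) = K.starProjection (x : H) := by
    intro x
    have hm : K.starProjection (x : H) ∈ L := hle (K.starProjection_apply_mem _)
    have : K'.starProjection x = (⟨K.starProjection (x : H), hm⟩ : L) := by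
      refine (Submodule.eq_starProjection_of_mem_of_inner_eq_zero
        (show (⟨K.starProjection (x : H), hm⟩ : L) ∈ K' from K.starProjection_apply_mem (x : H))
        fun w hw => ?_)
      exact Submodule.starProjection_inner_eq_zero (x : H) (w : H) hw
    rw [this]
  have hcP : cmp L K.starProjection = K'.starProjection :=
    ContinuousLinearMap.ext fun x => Subtype.ext (by
      rw [cmp_apply, hproj]
      exact DFunLike.congr_fun hKL (x : H))
  have hP' : K'.starProjection ∈ corner L M := (hML _).2 ⟨_, hP, hcP⟩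
  have hF : Full (corner L M) K' := by
    intro a' ha' hak
    set a := ext' L a' with ha
    have haz : a * L.starProjection = a := by
      rw [show L.starProjection = ext' L 1 from ContinuousLinearMap.ext fun _ => rfl, ha,
        ← ext'_mul, mul_one]
    have hza : L.starProjection * a = a := ContinuousLinearMap.ext fun x => by
      rw [mul_apply_eq_comp, ha, ext'_apply, proj_coe]
    have hext : ∀ m ∈ M, ext' L (cmp L m) = L.starProjection * m := fun m hm => by
      rw [ext'_cmp, mul_assoc, ← hLM.comm m hm, ← mul_assoc,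
        L.isIdempotentElem_starProjection.eq]
    have haM : a ∈ M.commutant := by
      refine VonNeumannAlgebra.mem_commutant_iff.2 fun m hm => ?_
      have hcom := VonNeumannAlgebra.mem_commutant_iff.1 ha' (cmp L m) ((hML _).2 ⟨m, hm, rfl⟩)
      have e := congrArg (ext' L) hcom
      rw [ext'_mul, ext'_mul, hext m hm, ← ha] at e
      calc m * a = m * (L.starProjection * a) := by rw [hza]
        _ = L.starProjection * m * a := by rw [← mul_assoc, ← hLM.comm m hm]
        _ = a * (L.starProjection * m) := e
        _ = a * m := by rw [← mul_assoc, haz]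
    have hakP : a * K.starProjection = 0 := by
      have e : ext' L (a' * cmp L K.starProjection) = 0 := by
        rw [hcP, hak]
        exact ContinuousLinearMap.ext fun x => by simp [ext'_apply]
      rwa [ext'_mul, hext _ hP, hKL, ← ha] at e
    have h0 := hfull a haM haz hakP
    rw [← cmp_ext' L a', ← ha, h0]
    exact ContinuousLinearMap.ext fun x => Subtype.ext (by simp [cmp_apply])
  have hA' := isCorner_corner K' (corner L M) hP'
  have hclose : Lit.IsClose L (corner L M) (corner L N) γ := by
    constructor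
    · intro b hb hb1
      obtain ⟨y, hy, hxy⟩ := hc.1 _ (ext'_mem L hML hLM.mem hb) ((norm_ext'_le L b).trans hb1)
      refine ⟨cmp L y, (hNL _).2 ⟨y, hy, rfl⟩, ?_⟩
      show ‖b - cmp L y‖ ≤ γ
      rw [← cmp_ext' L b, ← cmp_sub]
      exact (norm_cmp_le L _).trans hxy
    · intro b hb hb1
      obtain ⟨y, hy, hxy⟩ := hc.2 _ (ext'_mem L hNL hLN.mem hb) ((norm_ext'_le L b).trans hb1)
      refine ⟨cmp L y, (hML _).2 ⟨y, hy, rfl⟩, ?_⟩
      show ‖b - cmp L y‖ ≤ γ
      rw [← cmp_ext' L b, ← cmp_sub]
      exact (norm_cmp_le L _).trans hxy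
  refine h L (corner L M) (corner L N) K' γ hP' hF ?_ hγ hclose
  obtain ⟨ξ, h1, h2, h3⟩ := ht
  let j : K → K' := fun k => ⟨⟨(k : H), hle k.2⟩, k.2⟩
  have hrep : ∀ x ∈ corner K' (corner L M), ∃ m ∈ M,
      cmp K m ∈ A ∧ ∀ k : K, x (j k) = j (cmp K m k) := by
    intro x hx
    obtain ⟨m', hm', rfl⟩ := (hA' x).1 hx
    obtain ⟨m, hm, rfl⟩ := (hML m').1 hm'
    refine ⟨m, hm, (hA _).2 ⟨m, hm, rfl⟩, fun k => Subtype.ext (Subtype.ext ?_)⟩
    show ((K'.starProjection ((cmp L m) ⟨(k : H), hle k.2⟩) : L) : H) = K.starProjection (m k)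
    rw [hproj, cmp_apply]
    have e := congrArg star hKL
    rw [star_mul, (isSelfAdjoint_starProjection K).star_eq,
      (isSelfAdjoint_starProjection L).star_eq] at e
    exact DFunLike.congr_fun e (m k)
  refine ⟨fun n => j (ξ n), h1, fun x hx y hy => ?_, fun x hx hx0 => ?_⟩
  · obtain ⟨m, -, hmA, hmx⟩ := hrep x hx
    obtain ⟨m', -, hmA', hmy⟩ := hrep y hy
    refine Eq.trans (tsum_congr fun n => ?_)
      ((h2 _ hmA _ hmA').trans (tsum_congr fun n => ?_))
    · rw [hmy, hmx]; rfl
    · rw [hmx, hmy]; rfl
  · obtain ⟨m, -, hmA, hmx⟩ := hrep x hx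
    have h0 := h3 _ hmA fun n => by
      have e := hmx (ξ n)
      rw [hx0 n] at e
      exact Subtype.ext (congrArg (fun v : K' => ((v : L) : H)) e).symm
    intro v
    have e := hmx ⟨((v : L) : H), v.2⟩
    rw [show cmp K m (⟨((v : L) : H), v.2⟩ : K) = 0 from h0 _] at e
    exact (congrArg x (show v = j ⟨((v : L) : H), v.2⟩ from rfl)).trans e

/-- Gluing along common central blocks. -/
lemma glue (M N : VonNeumannAlgebra H) (L : ι → Submodule ℂ H) [∀ i, CompleteSpace (L i)]
    (hB : Blocks fun i => (L i).starProjection)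
    (hM : ∀ i, CProj M (L i).starProjection) (hN : ∀ i, CProj N (L i).starProjection)
    {c : ℝ} (hc : 0 ≤ c) (h : ∀ i, NearConj (corner (L i) M) (corner (L i) N) c) :
    NearConj M N c := by
  choose w hw hw1 hMN hNM using h
  have hwU := fun i => unitary_of_isUnitaryOp (hw i)
  let z : ι → (H →L[ℂ] H) := fun i => (L i).starProjection
  let b : ι → (H →L[ℂ] H) := fun i => ext' (L i) (w i - 1)
  have he1 : ∀ i, ext' (L i) 1 = z i := fun i => ContinuousLinearMap.ext fun _ => rfl
  have hzl : ∀ i (a : L i →L[ℂ] L i), z i * ext' (L i) a = ext' (L i) a := fun i a => by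
    rw [← he1, ← ext'_mul, one_mul]
  have hzr : ∀ i (a : L i →L[ℂ] L i), ext' (L i) a * z i = ext' (L i) a := fun i a => by
    rw [← he1, ← ext'_mul, mul_one]
  obtain ⟨E, hE, hEr, hEl⟩ := exists_block_limit (b := b) hB (fun i => hzl i _) (fun i => hzr i _)
    hc fun i => (norm_ext'_le _ _).trans (hw1 i)
  set W := 1 + E with hW
  have hb : ∀ i, z i + b i = ext' (L i) (w i) := fun i => by
    rw [← he1]
    refine ContinuousLinearMap.ext fun x => ?_
    simp [b, ext'_apply]
  have hWr : ∀ i, W * z i = ext' (L i) (w i) := fun i => by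
    rw [hW, add_mul, one_mul, hEr, hb]
  have hWl : ∀ i, z i * W = ext' (L i) (w i) := fun i => by
    rw [hW, mul_add, mul_one, hEl, hb]
  have hWsr : ∀ i, star W * z i = ext' (L i) (star (w i)) := fun i => by
    have := congrArg star (hWl i)
    rwa [star_mul, star_ext', (hB.proj i).isSelfAdjoint.star_eq] at this
  have hWsl : ∀ i, z i * star W = ext' (L i) (star (w i)) := fun i => by
    have := congrArg star (hWr i)
    rwa [star_mul, star_ext', (hB.proj i).isSelfAdjoint.star_eq] at this
  have hU : W ∈ unitary (H →L[ℂ] H) := by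
    refine Unitary.mem_iff.2 ⟨hB.ext fun i => ?_, hB.ext fun i => ?_⟩
    · rw [mul_assoc, hWr, ← hzl i (w i), ← mul_assoc, hWsr, ← ext'_mul,
        (Unitary.mem_iff.1 (hwU i)).1, he1, one_mul]
    · rw [mul_assoc, hWsr, ← hzl i (star (w i)), ← mul_assoc, hWr, ← ext'_mul,
        (Unitary.mem_iff.1 (hwU i)).2, he1, one_mul]
  have side : ∀ (S T : VonNeumannAlgebra H) (V : H →L[ℂ] H)
      (v : ∀ i, L i →L[ℂ] L i), (∀ i, CProj S (z i)) → (∀ i, CProj T (z i)) →
      (∀ i, V * z i = ext' (L i) (v i)) → (∀ i, star V * z i = ext' (L i) (star (v i))) →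
      (∀ i, ∀ x ∈ corner (L i) S, v i * x * star (v i) ∈ corner (L i) T) →
      ∀ x ∈ S, V * x * star V ∈ T := by
    intro S T V v hS hT hV hV' hv x hx
    have key : ∀ i, V * x * star V * z i ∈ T := fun i => by
      have hmem := hv i (cmp (L i) x) ((isCorner_corner (L i) S (hS i).mem _).2 ⟨x, hx, rfl⟩)
      have e : V * x * star V * z i = ext' (L i) (v i * cmp (L i) x * star (v i)) := by
        rw [mul_assoc (V * x), hV', ← hzl i (star (v i)), ← mul_assoc, mul_assoc V x,
          ← (hS i).comm x hx, ← mul_assoc, hV, ext'_mul, ext'_mul, ext'_cmp]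
        show _ = ext' (L i) (v i) * (z i * x * z i) * ext' (L i) (star (v i))
        simp only [← mul_assoc, hzr]
        simp only [mul_assoc, hzl]
      rw [e]
      exact ext'_mem (L i) (isCorner_corner (L i) T (hT i).mem) (hT i).mem hmem
    rw [← SetLike.mem_coe, ← T.centralizer_centralizer]
    intro a ha
    refine hB.ext fun i => ?_
    show a * (V * x * star V) * z i = V * x * star V * a * z i
    rw [mul_assoc a, ← ha _ (key i), mul_assoc (V * x * star V), mul_assoc (V * x * star V),
      ha _ (hT i).mem]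
  have hW1 : ‖W - 1‖ ≤ c := by rw [hW, add_sub_cancel_left]; exact hE
  refine ⟨W, isUnitaryOp_of_unitary hU, hW1, fun x hx => ⟨W * x * star W, ?_,
    intertwines_of_eq hU rfl⟩, fun y hy => ⟨star W * y * W, ?_, intertwines_of_eq hU ?_⟩⟩
  · refine side M N W w hM hN hWr hWsr (fun i x hx => ?_) x hx
    obtain ⟨y, hy, hxy⟩ := hMN i x hx
    rwa [← eq_of_intertwines (hwU i) hxy]
  · have := side N M (star W) (fun i => star (w i)) hN hM hWsr
      (fun i => (congrArg (· * z i) (star_star W)).trans
        ((hWr i).trans (congrArg (ext' (L i)) (star_star (w i)).symm))) (fun i y hy => ?_) y hy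
    · rwa [star_star] at this
    obtain ⟨x, hx, hxy⟩ := hNM i y hy
    obtain ⟨h1, h2⟩ := Unitary.mem_iff.1 (hwU i)
    refine (congrArg (· ∈ corner (L i) M) ?_).mpr hx
    show star (w i) * y * star (star (w i)) = x
    refine (congrArg (star (w i) * y * ·) (star_star (w i))).trans ?_
    rw [eq_of_intertwines (hwU i) hxy,
      show star (w i) * (w i * x * star (w i)) * w i =
        (star (w i) * w i) * x * (star (w i) * w i) by simp only [mul_assoc], h1, one_mul, mul_one]
  · obtain ⟨h1, h2⟩ := Unitary.mem_iff.1 hU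
    rw [show W * (star W * y * W) * star W = (W * star W) * y * (W * star W) by
      simp only [mul_assoc], h2, one_mul, mul_one]

/-- From one full corner with a faithful tracial state to all semifinite algebras. -/
theorem target_of_fullCorner
    (h : ∃ δ C : ℝ, 0 < δ ∧ 0 ≤ C ∧ ∀ (H : Type u) [NormedAddCommGroup H] [InnerProductSpace ℂ H]
      [CompleteSpace H] (M N : VonNeumannAlgebra H) (K : Submodule ℂ H) [CompleteSpace K] (γ : ℝ),
      K.starProjection ∈ M → Two.Full M K →
      (∃ ξ : ℕ → K, Lit.IsFaithfulTrace K (Two.corner K M) ξ) →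
      γ < δ → Lit.IsClose H M N γ → NearConj M N (C * γ)) : Target.{u} := by
  obtain ⟨δ₀, C₀, hδ, hC, h⟩ := h
  refine ⟨min (1 / 100000) (δ₀ / 60000), 60000 * C₀ + 12800, by positivity, ?_⟩
  intro H _ _ _ M N γ hM hlt hclose
  obtain ⟨ι, K, hKc, A, hP, ho, hfull', hA⟩ := hM
  have := hKc
  have hfull : ∀ a ∈ M.commutant, (∀ i, a * (K i).starProjection = 0) → a = 0 := fun a ha h0 =>
    hfull' a ha fun i k hk => by
      have e := DFunLike.congr_fun (h0 i) k
      rwa [mul_apply_eq_comp, Submodule.starProjection_eq_self_iff.2 hk, zero_apply] at e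
  obtain ⟨hlt1, hlt2⟩ := lt_min_iff.1 hlt
  have hγ0 : 0 ≤ γ := by
    obtain ⟨x, _, hx⟩ := hclose.1 0 (zero_mem _)
      (ContinuousLinearMap.opNorm_le_bound _ zero_le_one fun z => by simp)
    exact (norm_nonneg _).trans hx
  have hB := hull_blocks M K ho hfull
  have hz : ∀ i, CProj M (hull M (K i)).starProjection := fun i => hull_central (hP i)
  obtain ⟨v, hv1, hvN⟩ := exists_central_move hclose hγ0 hlt1.le hz hB
  set N₁ := conjAlg v N
  obtain ⟨hv, hv'⟩ := Unitary.mem_iff.1 v.2
  have hz1 : ∀ i, CProj N₁ (hull M (K i)).starProjection := fun i => by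
    refine ⟨(hz i).proj, mem_conjAlg.2 (hvN i).mem, fun y hy => ?_⟩
    have e := congrArg (fun a => star (v : H →L[ℂ] H) * a * (v : H →L[ℂ] H))
      ((hvN i).comm _ (mem_conjAlg.1 hy))
    have k1 : ∀ a : H →L[ℂ] H, star (v : H →L[ℂ] H) * ((v : H →L[ℂ] H) * a) = a := fun a => by
      rw [← mul_assoc, hv, one_mul]
    simpa only [mul_assoc, k1, hv, mul_one] using e
  set γ₁ := γ + 2 * ‖(v : H →L[ℂ] H) - 1‖ * (1 + γ)
  have hγ₁ : γ₁ ≤ 60000 * γ := by
    have : 2 * ‖(v : H →L[ℂ] H) - 1‖ * (1 + γ) ≤ 2 * (12800 * γ) * 2 := by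
      gcongr
      linarith
    linarith
  have hγ₁0 : 0 ≤ γ₁ := add_nonneg hγ0 (by positivity)
  have hpieces : ∀ i, NearConj (corner (hull M (K i)) M) (corner (hull M (K i)) N₁)
      (C₀ * γ₁) := fun i => by
    obtain ⟨hA1, hA2⟩ := hA i
    refine piece h M N₁ (K i) (hull M (K i)) (hP i) (hz i) (hz1 i) (hull_mul_proj M (K i))
      (fun a ha haz hak => hfull a ha fun j => ?_) hA1 hA2
      (lt_of_le_of_lt hγ₁ (by rw [lt_div_iff₀ (by norm_num)] at hlt2; linarith))
      (close_conjAlg hclose v)
    by_cases hji : j = i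
    · subst hji; exact hak
    · have e := hB.orth i j (Ne.symm hji)
      rw [← haz, mul_assoc, ← hull_mul_proj M (K j), ← mul_assoc _ _ (K j).starProjection, e,
        zero_mul, mul_zero]
  obtain ⟨u, hu, hu1, hu2, hu3⟩ :=
    nearConj_of_conjAlg v (glue M N₁ _ hB hz hz1 (mul_nonneg hC hγ₁0) hpieces)
  refine ⟨u, hu, hu1.trans ?_, hu2, hu3⟩
  nlinarith [mul_le_mul_of_nonneg_left hγ₁ hC]

end Vale.Agent.P096.Semi
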