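import Vale.Agent.P096.Semi.Newton

/-!
P096: close algebras contain close countably generated subalgebras through any finite sets.
-/

namespace Vale.Agent.P096.Semi

open scoped InnerProductSpace
open Filter Topology TopologicalSpace
open Vale.Agent.P096.Two

universe u

variable {H : Type u} [NormedAddCommGroup H] [InnerProductSpace ℂ H] [CompleteSpace H]

/-- The span of a multiplicatively closed, self-adjoint set containing one. -/
noncomputable def spanAlg (D : Set (H →L[ℂ] H)) (h1 : (1 : H →L[ℂ] H) ∈ D)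
    (hm : ∀ a ∈ D, ∀ b ∈ D, a * b ∈ D) (hs : ∀ a ∈ D, star a ∈ D) :
    StarSubalgebra ℂ (H →L[ℂ] H) where
  carrier := Submodule.span ℂ D
  mul_mem' := fun {x y} hx hy => by
    induction hx using Submodule.span_induction with
    | mem a ha =>
      induction hy using Submodule.span_induction with
      | mem b hb => exact Submodule.subset_span (hm a ha b hb)
      | zero => simp
      | add b c _ _ h h' => rw [mul_add]; exact add_mem h h'
      | smul r b _ h => rw [mul_smul_comm]; exact Submodule.smul_mem _ r h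
    | zero => simp
    | add a b _ _ h h' => rw [add_mul]; exact add_mem h h'
    | smul r a _ h => rw [smul_mul_assoc]; exact Submodule.smul_mem _ r h
  add_mem' := fun hx hy => add_mem hx hy
  algebraMap_mem' c := by
    rw [Algebra.algebraMap_eq_smul_one]
    exact Submodule.smul_mem _ c (Submodule.subset_span h1)
  star_mem' := fun {x} hx => by
    induction hx using Submodule.span_induction with
    | mem a ha => exact Submodule.subset_span (hs a ha)
    | zero => simp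
    | add a b _ _ h h' => rw [star_add]; exact add_mem h h'
    | smul r a _ h => rw [star_smul]; exact Submodule.smul_mem _ _ h

/-- The algebra generated by a self-adjoint set: its double centralizer. -/
noncomputable def genAlg (D : Set (H →L[ℂ] H)) : VonNeumannAlgebra H where
  toStarSubalgebra := StarSubalgebra.centralizer ℂ (Set.centralizer D)
  centralizer_centralizer' := by simp

theorem star_mem_centralizer_of {D : Set (H →L[ℂ] H)} (hs : ∀ a ∈ D, star a ∈ D)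
    {t : H →L[ℂ] H} (ht : t ∈ Set.centralizer D) : star t ∈ Set.centralizer D := fun a ha => by
  have := congrArg star (ht (star a) (hs a ha))
  simpa [star_mul] using this.symm

theorem coe_genAlg {D : Set (H →L[ℂ] H)} (hs : ∀ a ∈ D, star a ∈ D) :
    (genAlg D : Set (H →L[ℂ] H)) = Set.centralizer (Set.centralizer D) := by
  show (StarSubalgebra.centralizer ℂ (Set.centralizer D) : Set (H →L[ℂ] H)) = _
  rw [StarSubalgebra.coe_centralizer]
  congr 1
  refine Set.union_eq_left.2 fun t ht => ?_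
  simpa using star_mem_centralizer_of hs (Set.mem_star.1 ht)

theorem subset_genAlg {D : Set (H →L[ℂ] H)} (hs : ∀ a ∈ D, star a ∈ D) {x : H →L[ℂ] H}
    (hx : x ∈ D) : x ∈ genAlg D := by
  rw [← SetLike.mem_coe, coe_genAlg hs]
  exact Set.subset_centralizer_centralizer hx

theorem genAlg_le {D : Set (H →L[ℂ] H)} (hs : ∀ a ∈ D, star a ∈ D) {M : VonNeumannAlgebra H}
    (hD : ∀ a ∈ D, a ∈ M) {x : H →L[ℂ] H} (hx : x ∈ genAlg D) : x ∈ M := by
  rw [← SetLike.mem_coe, coe_genAlg hs] at hx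
  rw [← SetLike.mem_coe, ← M.centralizer_centralizer]
  intro t ht
  exact hx t fun a ha => ht a (hD a ha)

theorem genAlg_countablyGenerated {D : Set (H →L[ℂ] H)} (hc : D.Countable)
    (h1 : (1 : H →L[ℂ] H) ∈ D) (hs : ∀ a ∈ D, star a ∈ D) :
    Lit.IsCountablyGenerated H (genAlg D) := by
  obtain ⟨g, hg⟩ := hc.exists_eq_range ⟨1, h1⟩
  refine ⟨g, fun n => subset_genAlg hs (hg ▸ Set.mem_range_self n), ?_⟩
  rw [← hg, commutantSet_eq, commutantSet_eq, coe_genAlg hs]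
  exact Set.subset_centralizer_centralizer

/-- Close algebras contain close countably generated algebras through given finite sets. -/
theorem exists_countable_pair : ∃ C₁ : ℝ, 0 ≤ C₁ ∧ ∀ (H : Type u) [NormedAddCommGroup H]
    [InnerProductSpace ℂ H] [CompleteSpace H] (M N : VonNeumannAlgebra H) (γ : ℝ),
    0 < γ → γ ≤ 1 → Lit.IsClose H M N γ → ∀ F G : Finset (H →L[ℂ] H),
      (∀ x ∈ F, x ∈ M) → (∀ y ∈ G, y ∈ N) →
      ∃ M₀ N₀ : VonNeumannAlgebra H, Lit.IsCountablyGenerated H M₀ ∧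
        (∀ x ∈ M₀, x ∈ M) ∧ (∀ y ∈ N₀, y ∈ N) ∧ (∀ x ∈ F, x ∈ M₀) ∧ (∀ y ∈ G, y ∈ N₀) ∧
        Lit.IsClose H M₀ N₀ (C₁ * γ) := by
  obtain ⟨C, hC, hcn⟩ := commutant_near.{u}
  refine ⟨C * (C * 3), by positivity, ?_⟩
  intro H _ _ _ M N γ hγ hγ1 hclose F G hF hG
  classical
  -- one choice of near elements
  have hch : ∀ (A B : VonNeumannAlgebra H), NearIncl (A : Set (H →L[ℂ] H)) B γ →
      ∃ f : (H →L[ℂ] H) → (H →L[ℂ] H),
        ∀ e ∈ A, f e ∈ B ∧ ‖e - f e‖ ≤ γ * ‖e‖ := fun A B hAB => by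
    have : ∀ e : H →L[ℂ] H, ∃ y, e ∈ A → y ∈ B ∧ ‖e - y‖ ≤ γ * ‖e‖ := fun e => by
      by_cases he : e ∈ A
      · obtain ⟨y, hy, hxy⟩ := near_scaled (S := A.toStarSubalgebra) (T := B.toStarSubalgebra)
          (fun z hz h1 => hAB z hz h1) he
        exact ⟨y, fun _ => ⟨hy, hxy⟩⟩
      · exact ⟨0, fun h => absurd h he⟩
    choose f hf using this
    exact ⟨f, hf⟩
  obtain ⟨fM, hfM⟩ := hch M N hclose.1
  obtain ⟨fN, hfN⟩ := hch N M hclose.2
  -- dense countable subsets of spans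
  have hdense : ∀ D : Set (H →L[ℂ] H), ∃ E : Set (H →L[ℂ] H), D.Countable →
      E.Countable ∧ E ⊆ Submodule.span ℂ D ∧
        (Submodule.span ℂ D : Set (H →L[ℂ] H)) ⊆ closure E := fun D => by
    by_cases hD : D.Countable
    · have hsep : IsSeparable (Submodule.span ℂ D : Set (H →L[ℂ] H)) :=
        (hD.isSeparable).span
      obtain ⟨E, hE1, hE2, hE3⟩ := hsep.exists_countable_dense_subset
      exact ⟨E, fun _ => ⟨hE2, hE1, hE3⟩⟩
    · exact ⟨∅, fun h => absurd h hD⟩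
  choose E hE using hdense
  let nx : ((H →L[ℂ] H) → (H →L[ℂ] H)) → Set (H →L[ℂ] H) → Set (H →L[ℂ] H) → Set (H →L[ℂ] H) :=
    fun f D D' => insert 1 (D ∪ star '' D ∪ Set.image2 (· * ·) D D ∪ f '' E D')
  let step : Set (H →L[ℂ] H) × Set (H →L[ℂ] H) → Set (H →L[ℂ] H) × Set (H →L[ℂ] H) :=
    fun p => (nx fN p.1 p.2, nx fM p.2 p.1)
  let seq : ℕ → Set (H →L[ℂ] H) × Set (H →L[ℂ] H) := fun n =>
    step^[n] ((F : Set (H →L[ℂ] H)), (G : Set (H →L[ℂ] H)))
  have hsucc : ∀ n, seq (n + 1) = step (seq n) := fun n => Function.iterate_succ_apply' _ _ _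
  have good : ∀ n, ((seq n).1.Countable ∧ ∀ x ∈ (seq n).1, x ∈ M) ∧
      ((seq n).2.Countable ∧ ∀ y ∈ (seq n).2, y ∈ N) := by
    intro n
    induction n with
    | zero => exact ⟨⟨F.countable_toSet, hF⟩, G.countable_toSet, hG⟩
    | succ n ih =>
      obtain ⟨⟨c1, m1⟩, c2, m2⟩ := ih
      have aux : ∀ (A B : VonNeumannAlgebra H) (f : (H →L[ℂ] H) → (H →L[ℂ] H))
          (D D' : Set (H →L[ℂ] H)), (∀ e ∈ B, f e ∈ A ∧ ‖e - f e‖ ≤ γ * ‖e‖) → D.Countable →
          D'.Countable → (∀ x ∈ D, x ∈ A) → (∀ y ∈ D', y ∈ B) →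
          (nx f D D').Countable ∧ ∀ x ∈ nx f D D', x ∈ A := by
        intro A B f D D' hf cD cD' mD mD'
        refine ⟨((((cD.union (cD.image _)).union (cD.image2 cD _)).union
          ((hE D' cD').1.image _)).insert _), ?_⟩
        rintro x (rfl | ((hx | ⟨y, hy, rfl⟩) | ⟨a, ha, b, hb, rfl⟩) | ⟨e, he, rfl⟩)
        · exact one_mem A
        · exact mD x hx
        · exact star_mem (mD y hy)
        · exact mul_mem (mD a ha) (mD b hb)
        · refine (hf e ?_).1
          have hle : Submodule.span ℂ D' ≤ B.toStarSubalgebra.toSubalgebra.toSubmodule :=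
            Submodule.span_le.2 mD'
          exact hle ((hE D' cD').2.1 he)
      rw [hsucc]
      exact ⟨aux M N fN _ _ hfN c1 c2 m1 m2, aux N M fM _ _ hfM c2 c1 m2 m1⟩
  have mono1 : Monotone fun n => (seq n).1 := monotone_nat_of_le_succ fun n x hx => by
    show x ∈ (seq (n + 1)).1
    rw [hsucc]; exact Or.inr (Or.inl (Or.inl (Or.inl hx)))
  have mono2 : Monotone fun n => (seq n).2 := monotone_nat_of_le_succ fun n x hx => by
    show x ∈ (seq (n + 1)).2
    rw [hsucc]; exact Or.inr (Or.inl (Or.inl (Or.inl hx)))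
  have clos : ∀ (π : Set (H →L[ℂ] H) × Set (H →L[ℂ] H) → Set (H →L[ℂ] H)),
      (Monotone fun n => π (seq n)) →
      (∀ n, insert 1 (star '' π (seq n) ∪ Set.image2 (· * ·) (π (seq n)) (π (seq n))) ⊆
        π (seq (n + 1))) →
      (1 : H →L[ℂ] H) ∈ (⋃ n, π (seq n)) ∧
      (∀ a ∈ (⋃ n, π (seq n)), ∀ b ∈ (⋃ n, π (seq n)), a * b ∈ ⋃ n, π (seq n)) ∧
      (∀ a ∈ (⋃ n, π (seq n)), star a ∈ ⋃ n, π (seq n)) := by
    intro π hmono hsub
    refine ⟨Set.mem_iUnion.2 ⟨1, hsub 0 (Set.mem_insert _ _)⟩, fun a ha b hb => ?_, fun a ha => ?_⟩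
    · obtain ⟨i, hi⟩ := Set.mem_iUnion.1 ha
      obtain ⟨j, hj⟩ := Set.mem_iUnion.1 hb
      exact Set.mem_iUnion.2 ⟨max i j + 1, hsub _ (Or.inr (Or.inr
        ⟨a, hmono (le_max_left i j) hi, b, hmono (le_max_right i j) hj, rfl⟩))⟩
    · obtain ⟨i, hi⟩ := Set.mem_iUnion.1 ha
      exact Set.mem_iUnion.2 ⟨i + 1, hsub _ (Or.inr (Or.inl ⟨a, hi, rfl⟩))⟩
  set D := ⋃ n, (seq n).1 with hD
  set D' := ⋃ n, (seq n).2 with hD'
  obtain ⟨D1, Dm, Ds⟩ := clos Prod.fst mono1 fun n => by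
    rw [hsucc]
    rintro x (rfl | hx | hx)
    · exact Or.inl rfl
    · exact Or.inr (Or.inl (Or.inl (Or.inr hx)))
    · exact Or.inr (Or.inl (Or.inr hx))
  obtain ⟨D1', Dm', Ds'⟩ := clos Prod.snd mono2 fun n => by
    rw [hsucc]
    rintro x (rfl | hx | hx)
    · exact Or.inl rfl
    · exact Or.inr (Or.inl (Or.inl (Or.inr hx)))
    · exact Or.inr (Or.inl (Or.inr hx))
  -- the spans are close
  have near : ∀ (f : (H →L[ℂ] H) → (H →L[ℂ] H)) (A : VonNeumannAlgebra H)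
      (S S' : ℕ → Set (H →L[ℂ] H)), Monotone S → (∀ n, (S n).Countable) →
      (∀ n, ∀ x ∈ S n, x ∈ A) → (∀ e ∈ A, ‖e - f e‖ ≤ γ * ‖e‖) →
      (∀ n, f '' E (S n) ⊆ S' (n + 1)) → ∀ x ∈ Submodule.span ℂ (⋃ n, S n), ‖x‖ ≤ 1 →
      ∃ y ∈ Submodule.span ℂ (⋃ n, S' n), ‖x - y‖ ≤ 3 * γ := by
    intro f A S S' hS hSc hSA hf hsub x hx hx1
    obtain ⟨n, hn⟩ : ∃ n, x ∈ Submodule.span ℂ (S n) := by
      rw [Submodule.span_iUnion] at hx
      exact (Submodule.mem_iSup_of_directed _ fun i j =>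
        ⟨max i j, Submodule.span_mono (hS (le_max_left i j)),
          Submodule.span_mono (hS (le_max_right i j))⟩).1 hx
    obtain ⟨hEc, hEs, hEd⟩ := hE _ (hSc n)
    obtain ⟨e, he, hed⟩ := Metric.mem_closure_iff.1 (hEd hn) γ hγ
    rw [dist_eq_norm] at hed
    have heA : e ∈ A := by
      have hle : Submodule.span ℂ (S n) ≤ A.toStarSubalgebra.toSubalgebra.toSubmodule :=
        Submodule.span_le.2 (hSA n)
      exact hle (hEs he)
    refine ⟨f e, Submodule.subset_span (Set.mem_iUnion.2 ⟨n + 1, hsub n ⟨e, he, rfl⟩⟩), ?_⟩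
    have h1 := hf e heA
    have h2 : ‖e‖ ≤ 2 := by
      have := norm_le_norm_add_norm_sub' e x
      rw [norm_sub_rev] at this
      linarith
    have := norm_sub_le_norm_sub_add_norm_sub x e (f e)
    nlinarith
  set A₁ := spanAlg D D1 Dm Ds
  set A₂ := spanAlg D' D1' Dm' Ds'
  have n12 : ∀ x ∈ A₁, ‖x‖ ≤ 1 → ∃ y ∈ A₂, ‖x - y‖ ≤ 3 * γ :=
    near fM M _ _ mono1 (fun n => (good n).1.1) (fun n => (good n).1.2) (fun e he => (hfM e he).2)
      (fun n x hx => by rw [hsucc]; exact Or.inr (Or.inr hx))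
  have n21 : ∀ y ∈ A₂, ‖y‖ ≤ 1 → ∃ x ∈ A₁, ‖y - x‖ ≤ 3 * γ :=
    near fN N _ _ mono2 (fun n => (good n).2.1) (fun n => (good n).2.2) (fun e he => (hfN e he).2)
      (fun n x hx => by rw [hsucc]; exact Or.inr (Or.inr hx))
  have double : ∀ (S S' : Set (H →L[ℂ] H)) (h1 : (1 : H →L[ℂ] H) ∈ S)
      (hm : ∀ a ∈ S, ∀ b ∈ S, a * b ∈ S) (hs : ∀ a ∈ S, star a ∈ S) (h1' : (1 : H →L[ℂ] H) ∈ S')
      (hm' : ∀ a ∈ S', ∀ b ∈ S', a * b ∈ S') (hs' : ∀ a ∈ S', star a ∈ S'),
      (∀ x ∈ spanAlg S h1 hm hs, ‖x‖ ≤ 1 → ∃ y ∈ spanAlg S' h1' hm' hs', ‖x - y‖ ≤ 3 * γ) →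
      NearIncl (genAlg S : Set (H →L[ℂ] H)) (genAlg S') (C * (C * 3) * γ) := by
    intro S S' h1 hm hs h1' hm' hs' hnear x hx hx1
    have cent : ∀ (T : Set (H →L[ℂ] H)) (h1 : (1 : H →L[ℂ] H) ∈ T)
        (hm : ∀ a ∈ T, ∀ b ∈ T, a * b ∈ T) (hs : ∀ a ∈ T, star a ∈ T),
        Set.centralizer (spanAlg T h1 hm hs : Set (H →L[ℂ] H)) = Set.centralizer T := by
      intro T h1 hm hs
      refine Set.Subset.antisymm (Set.centralizer_subset Submodule.subset_span) fun t ht z hz => ?_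
      change z ∈ Submodule.span ℂ T at hz
      induction hz using Submodule.span_induction with
      | mem a ha => exact ht a ha
      | zero => simp
      | add a b _ _ h h' => rw [add_mul, mul_add, h, h']
      | smul r a _ h => rw [smul_mul_assoc, mul_smul_comm, h]
    have h2 := hcn H (spanAlg S h1 hm hs) (spanAlg S' h1' hm' hs') (3 * γ) (by positivity) hnear
    rw [cent, cent] at h2
    have hset : ∀ (T : Set (H →L[ℂ] H)), (∀ a ∈ T, star a ∈ T) →
        (StarSubalgebra.centralizer ℂ T : Set (H →L[ℂ] H)) = Set.centralizer T := fun T hT => by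
      rw [StarSubalgebra.coe_centralizer]
      congr 1
      exact Set.union_eq_left.2 fun t ht => by simpa using hT _ (Set.mem_star.1 ht)
    have h3 := hcn H (StarSubalgebra.centralizer ℂ S') (StarSubalgebra.centralizer ℂ S)
      (C * (3 * γ)) (by positivity)
      (fun z hz hz1 => by
        rw [← SetLike.mem_coe, hset S' hs'] at hz
        obtain ⟨w, hw, hzw⟩ := h2 z hz hz1
        exact ⟨w, by rw [← SetLike.mem_coe, hset S hs]; exact hw, hzw⟩) x
      (by rw [hset S hs]; rw [coe_genAlg hs] at hx; exact hx) hx1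
    obtain ⟨b, hb, hxb⟩ := h3
    rw [hset S' hs'] at hb
    refine ⟨b, by rw [coe_genAlg hs']; exact hb, ?_⟩
    show ‖x - b‖ ≤ _
    exact hxb.trans_eq (by ring)
  refine ⟨genAlg D, genAlg D', genAlg_countablyGenerated
      (Set.countable_iUnion fun n => (good n).1.1) D1 Ds,
    fun x hx => genAlg_le Ds (fun a ha => ?_) hx, fun y hy => genAlg_le Ds' (fun a ha => ?_) hy,
    fun x hx => subset_genAlg Ds (Set.mem_iUnion.2 ⟨0, hx⟩),
    fun y hy => subset_genAlg Ds' (Set.mem_iUnion.2 ⟨0, hy⟩),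
    double D D' D1 Dm Ds D1' Dm' Ds' n12, double D' D D1' Dm' Ds' D1 Dm Ds n21⟩
  · obtain ⟨i, hi⟩ := Set.mem_iUnion.1 ha
    exact (good i).1.2 a hi
  · obtain ⟨i, hi⟩ := Set.mem_iUnion.1 ha
    exact (good i).2.2 a hi

/-- The class of algebras with a faithful normal tracial state needs no countability. -/
theorem finite_of_countable {C δ : ℝ} (hC : 0 ≤ C) (hδ : 0 < δ)
    (h : ∀ (H : Type u) [NormedAddCommGroup H] [InnerProductSpace ℂ H] [CompleteSpace H]
      (M N : VonNeumannAlgebra H) (γ : ℝ), (∃ ξ, Lit.IsFaithfulTrace H M ξ) →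
      Lit.IsCountablyGenerated H M → γ < δ → Lit.IsClose H M N γ → NearConj M N (C * γ)) :
    ∃ δ' C' : ℝ, 0 < δ' ∧ 0 ≤ C' ∧ ∀ (H : Type u) [NormedAddCommGroup H] [InnerProductSpace ℂ H]
      [CompleteSpace H] (M N : VonNeumannAlgebra H) (γ : ℝ), (∃ ξ, Lit.IsFaithfulTrace H M ξ) →
      γ < δ' → Lit.IsClose H M N γ → NearConj M N (C' * γ) := by
  obtain ⟨C₁, hC₁, hpair⟩ := exists_countable_pair.{u}
  set K := C * C₁ with hK
  have hK0 : 0 ≤ K := mul_nonneg hC hC₁
  set δ₀ := min 1 (δ / (C₁ + 1)) with hδ₀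
  refine ⟨min δ₀ (1 / (24 * (K + 1) * (K + 1))), 4 * K, by positivity, by positivity, ?_⟩
  intro H _ _ _ M N γ hM hlt hclose
  obtain ⟨hlt0, hlt2⟩ := lt_min_iff.1 hlt
  have hγ : 0 ≤ γ := by
    obtain ⟨x, _, hx⟩ := hclose.1 0 (zero_mem _)
      (ContinuousLinearMap.opNorm_le_bound _ zero_le_one fun z => by simp)
    exact (norm_nonneg _).trans hx
  refine nearConj_of_solvable (δ := δ₀) hK0 (fun N' γ' hγ' hlt' hcl F G hF hG => ?_) hγ hlt0 ?_
    hclose
  · obtain ⟨hlt1, hltd⟩ := lt_min_iff.1 hlt'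
    rcases hγ'.eq_or_lt with rfl | hpos
    · refine ⟨1, one_mem _, by simp, fun x hx => ?_, fun y hy => ?_⟩
      · obtain ⟨y, hy, hxy⟩ := near_scaled (S := M.toStarSubalgebra) (T := N'.toStarSubalgebra)
          (fun z hz h1 => hcl.1 z hz h1) (hF x hx)
        rw [zero_mul, norm_le_zero_iff, sub_eq_zero] at hxy
        rw [hxy]; simpa using hy
      · obtain ⟨x, hx, hxy⟩ := near_scaled (S := N'.toStarSubalgebra) (T := M.toStarSubalgebra)
          (fun z hz h1 => hcl.2 z hz h1) (hG y hy)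
        rw [zero_mul, norm_le_zero_iff, sub_eq_zero] at hxy
        rw [hxy]; simpa using hx
    obtain ⟨M₀, N₀, hgen, hMle, hNle, hFM, hGN, hcl₀⟩ :=
      hpair H M N' γ' hpos hlt1.le hcl F G hF hG
    obtain ⟨ξ, h1, h2, h3⟩ := hM
    have hsmall : C₁ * γ' < δ := by
      rw [lt_div_iff₀ (by positivity)] at hltd
      nlinarith
    obtain ⟨u, hu, hu1, huM, huN⟩ := h H M₀ N₀ (C₁ * γ')
      ⟨ξ, h1, fun x hx y hy => h2 x (hMle x hx) y (hMle y hy),
        fun x hx => h3 x (hMle x hx)⟩ hgen hsmall hcl₀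
    have hU := unitary_of_isUnitaryOp hu
    refine ⟨u, hU, hu1.trans_eq (mul_assoc _ _ _).symm, fun x hx => ?_, fun y hy => ?_⟩
    · obtain ⟨y, hy, hxy⟩ := huM x (hFM x hx)
      rw [← eq_of_intertwines hU hxy]
      exact hNle y hy
    · obtain ⟨x, hx, hxy⟩ := huN y (hGN y hy)
      obtain ⟨h1', h2'⟩ := Unitary.mem_iff.1 hU
      rw [eq_of_intertwines hU hxy, show star u * (u * x * star u) * u =
        (star u * u) * x * (star u * u) by simp only [mul_assoc], h1', one_mul, mul_one]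
      exact hMle x hx
  · rw [lt_div_iff₀ (by positivity)] at hlt2
    linarith

end Vale.Agent.P096.Semi
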