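import Vale.Agent.P096.Semi.Newton

/-!
P096: orthogonal families of projections with total range, and operators built from their blocks.
-/

open scoped InnerProductSpace
open Filter Topology
open Vale.Agent.P096.Full.Uniform (WLim)

namespace Vale.Agent.P096.Semi

universe u v

variable {H : Type u} [NormedAddCommGroup H] [InnerProductSpace ℂ H] [CompleteSpace H]
  {ι : Type v}

/-- An orthogonal family of projections whose ranges span a dense subspace. -/
structure Blocks (z : ι → (H →L[ℂ] H)) : Prop where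
  proj : ∀ i, IsStarProjection (z i)
  orth : ∀ i j, i ≠ j → z i * z j = 0
  total : ∀ A : H →L[ℂ] H, (∀ i, A * z i = 0) → A = 0

lemma Blocks.ext {z : ι → (H →L[ℂ] H)} (hz : Blocks z) {A B : H →L[ℂ] H}
    (h : ∀ i, A * z i = B * z i) : A = B :=
  sub_eq_zero.1 (hz.total _ fun i => by rw [sub_mul, h, sub_self])

lemma sum_proj {z : ι → (H →L[ℂ] H)} (hp : ∀ i, IsStarProjection (z i))
    (ho : ∀ i j, i ≠ j → z i * z j = 0) (F : Finset ι) :
    IsStarProjection (∑ i ∈ F, z i) ∧ ∀ j, j ∈ F → (∑ i ∈ F, z i) * z j = z j := by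
  classical
  have h : ∀ j, j ∈ F → (∑ i ∈ F, z i) * z j = z j := fun j hj => by
    rw [Finset.sum_mul, Finset.sum_eq_single j (fun i _ hij => ho i j hij)
      (fun hn => absurd hj hn), (hp j).isIdempotentElem.eq]
  refine ⟨⟨?_, ?_⟩, h⟩
  · show (∑ i ∈ F, z i) * (∑ i ∈ F, z i) = _
    rw [Finset.mul_sum]
    exact Finset.sum_congr rfl h
  · show star (∑ i ∈ F, z i) = _
    rw [star_sum]
    exact Finset.sum_congr rfl fun i _ => (hp i).isSelfAdjoint.star_eq

/-- A sum of blocks is as small as its blocks. -/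
lemma norm_block_sum_le {z b : ι → (H →L[ℂ] H)} (hz : Blocks z) (hl : ∀ i, z i * b i = b i)
    (hr : ∀ i, b i * z i = b i) {c : ℝ} (hc : 0 ≤ c) (hb : ∀ i, ‖b i‖ ≤ c) (F : Finset ι) :
    ‖∑ i ∈ F, b i‖ ≤ c := by
  classical
  have horth : ∀ i j, i ≠ j → ∀ v w : H, ⟪z i v, z j w⟫_ℂ = 0 := fun i j hij v w => by
    rw [← ContinuousLinearMap.adjoint_inner_right, ← ContinuousLinearMap.star_eq_adjoint,
      (hz.proj i).isSelfAdjoint.star_eq, ← mul_apply_eq_comp, hz.orth i j hij, zero_apply,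
      inner_zero_right]
  have pyth : ∀ (G : Finset ι) (x : ι → H), (∀ i, z i (x i) = x i) →
      ‖∑ i ∈ G, x i‖ ^ 2 = ∑ i ∈ G, ‖x i‖ ^ 2 := fun G x hx => by
    induction G using Finset.induction_on with
    | empty => simp
    | insert a s ha ih =>
      rw [Finset.sum_insert ha, Finset.sum_insert ha, ← ih, @norm_add_sq ℂ, inner_sum,
        Finset.sum_eq_zero fun i hi => ?_]
      · simp
      · rw [← hx a, ← hx i]
        exact horth a i (fun h => ha (h ▸ hi)) _ _
  refine ContinuousLinearMap.opNorm_le_bound _ hc fun v => ?_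
  have h1 : ∀ i, z i (b i v) = b i v := fun i => DFunLike.congr_fun (hl i) v
  have h2 : ∀ i, z i (z i v) = z i v := fun i =>
    DFunLike.congr_fun (hz.proj i).isIdempotentElem.eq v
  have h3 : ∀ i, b i v = b i (z i v) := fun i => (DFunLike.congr_fun (hr i) v).symm
  refine (sq_le_sq₀ (norm_nonneg _) (by positivity)).1 ?_
  rw [sum_apply, pyth F (fun i => b i v) h1, mul_pow]
  calc ∑ i ∈ F, ‖b i v‖ ^ 2 ≤ ∑ i ∈ F, c ^ 2 * ‖z i v‖ ^ 2 := Finset.sum_le_sum fun i _ => by
        rw [h3 i, ← mul_pow]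
        exact pow_le_pow_left₀ (norm_nonneg _) ((b i).le_of_opNorm_le (hb i) _) 2
    _ = c ^ 2 * ‖∑ i ∈ F, z i v‖ ^ 2 := by
        rw [← Finset.mul_sum, pyth F (fun i => z i v) h2]
    _ ≤ c ^ 2 * ‖v‖ ^ 2 := by
        refine mul_le_mul_of_nonneg_left (pow_le_pow_left₀ (norm_nonneg _) ?_ 2) (sq_nonneg c)
        rw [← sum_apply]
        exact ((∑ i ∈ F, z i).le_of_opNorm_le (sum_proj hz.proj hz.orth F).1.norm_le v).trans_eq
          (one_mul _)

/-- Bounded finite stages have a limit keeping what is eventually constant on the right. -/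
lemma exists_stage_limit (B : Finset ι → (H →L[ℂ] H)) {r : ℝ} (hr : 0 ≤ r)
    (h : ∀ F, ‖B F‖ ≤ r) :
    ∃ E : H →L[ℂ] H, ‖E‖ ≤ r ∧
      ∀ (j : ι) (A C : H →L[ℂ] H), (∀ F, j ∈ F → B F * A = C) → E * A = C := by
  classical
  obtain ⟨E, hE, hlim⟩ := exists_opLim (Ultrafilter.of (atTop : Filter (Finset ι))) B hr h
  refine ⟨E, hE, fun j A C hj => ContinuousLinearMap.ext fun v => ?_⟩
  refine ((hlim (A v)).congr ?_).unique (WLim.const (C v))
  refine Filter.Eventually.filter_mono (Ultrafilter.of_le _) ?_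
  exact (eventually_ge_atTop ({j} : Finset ι)).mono fun F hF =>
    DFunLike.congr_fun (hj F (hF (Finset.mem_singleton_self j))) v

/-- The sum of uniformly bounded blocks. -/
lemma exists_block_limit {z b : ι → (H →L[ℂ] H)} (hz : Blocks z) (hl : ∀ i, z i * b i = b i)
    (hr : ∀ i, b i * z i = b i) {c : ℝ} (hc : 0 ≤ c) (hb : ∀ i, ‖b i‖ ≤ c) :
    ∃ E : H →L[ℂ] H, ‖E‖ ≤ c ∧ (∀ i, E * z i = b i) ∧ ∀ i, z i * E = b i := by
  classical
  obtain ⟨E, hE, hlim⟩ :=
    exists_stage_limit (fun F => ∑ i ∈ F, b i) hc (norm_block_sum_le hz hl hr hc hb)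
  have hR : ∀ i, E * z i = b i := fun i => hlim i (z i) (b i) fun F hi => by
    rw [Finset.sum_mul, Finset.sum_eq_single i (fun k _ hk => by
      rw [← hr k, mul_assoc, hz.orth k i hk, mul_zero]) (fun hn => absurd hi hn), hr]
  refine ⟨E, hE, hR, fun i => hz.ext fun k => ?_⟩
  rw [mul_assoc, hR]
  by_cases hik : i = k
  · subst hik; rw [hl, hr]
  · rw [← hl k, ← mul_assoc, hz.orth i k hik, zero_mul, ← hr i, mul_assoc, hz.orth i k hik,
      mul_zero]

/-- The diagonal of a product of two sums, by averaging over subsets. -/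
lemma powerset_identity {R : Type*} [Ring R] (f g : ι → R) (F : Finset ι) :
    2 * ∑ S ∈ F.powerset, (∑ i ∈ S, f i) = 2 ^ F.card * ∑ i ∈ F, f i ∧
      4 * ∑ S ∈ F.powerset, (∑ i ∈ S, f i) * (∑ i ∈ S, g i) =
        2 ^ F.card * ((∑ i ∈ F, f i * g i) + (∑ i ∈ F, f i) * ∑ i ∈ F, g i) := by
  classical
  have lin : ∀ (h : ι → R) (G : Finset ι),
      2 * ∑ S ∈ G.powerset, (∑ i ∈ S, h i) = 2 ^ G.card * ∑ i ∈ G, h i := by
    intro h G
    induction G using Finset.induction_on with
    | empty => simp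
    | insert a s ha ih =>
      rw [Finset.sum_powerset_insert ha, Finset.sum_insert ha, Finset.card_insert_of_notMem ha,
        Finset.sum_congr rfl fun S hS =>
          Finset.sum_insert fun hm => ha (Finset.mem_powerset.1 hS hm),
        Finset.sum_add_distrib, Finset.sum_const, Finset.card_powerset, nsmul_eq_mul, pow_succ]
      simp only [mul_add, ih, Nat.cast_pow, Nat.cast_ofNat]
      have hc : (2 : R) ^ s.card * 2 = 2 * 2 ^ s.card :=
        ((Commute.refl (2 : R)).pow_left s.card).eq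
      rw [hc]
      noncomm_ring
  refine ⟨lin f F, ?_⟩
  induction F using Finset.induction_on with
  | empty => simp
  | insert a s ha ih =>
    set A := ∑ S ∈ s.powerset, (∑ i ∈ S, f i) * (∑ i ∈ S, g i)
    set N : R := 2 ^ s.card
    have l1 := lin f s
    have l2 := lin g s
    have e : ∀ S ∈ s.powerset, (∑ i ∈ insert a S, f i) * (∑ i ∈ insert a S, g i) =
        (∑ i ∈ S, f i) * (∑ i ∈ S, g i) + f a * (∑ i ∈ S, g i) + (∑ i ∈ S, f i) * g a +
          f a * g a := fun S hS => by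
      rw [Finset.sum_insert fun hm => ha (Finset.mem_powerset.1 hS hm),
        Finset.sum_insert fun hm => ha (Finset.mem_powerset.1 hS hm)]
      noncomm_ring
    rw [Finset.sum_powerset_insert ha, Finset.sum_congr rfl e, Finset.card_insert_of_notMem ha]
    simp only [Finset.sum_insert ha, Finset.sum_add_distrib, ← Finset.mul_sum, ← Finset.sum_mul,
      Finset.sum_const, Finset.card_powerset, nsmul_eq_mul, Nat.cast_pow, Nat.cast_ofNat]
    have hN : ∀ x : R, x * N = N * x := fun x =>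
      ((Commute.ofNat_right x 2).pow_right s.card).eq
    have hfa : ∀ x : R, f a * (N * x) = N * (f a * x) := fun x => by
      rw [← mul_assoc, hN, mul_assoc]
    show (4 : R) * (A + (A + f a * (∑ S ∈ s.powerset, ∑ i ∈ S, g i) +
      (∑ S ∈ s.powerset, ∑ i ∈ S, f i) * g a + f a * (N * g a))) = _
    calc (4 : R) * (A + (A + f a * (∑ S ∈ s.powerset, ∑ i ∈ S, g i) +
          (∑ S ∈ s.powerset, ∑ i ∈ S, f i) * g a + f a * (N * g a)))
        = 2 * (4 * A) + 2 * (f a * (2 * ∑ S ∈ s.powerset, ∑ i ∈ S, g i)) +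
            2 * ((2 * ∑ S ∈ s.powerset, ∑ i ∈ S, f i) * g a) + 4 * (f a * (N * g a)) := by
          noncomm_ring
      _ = _ := by
          rw [ih, l2, l1, hfa, hfa, pow_succ, show (2 : R) ^ s.card * 2 = 2 * N from (hN 2).symm]
          simp only [N]
          noncomm_ring

end Vale.Agent.P096.Semi
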