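import Vale.Agent.P096.Two.Corner
import Vale.Agent.P096.Two.Rigid
import Vale.Agent.P096.Full.Uniform.Weak
import Vale.Agent.P096.Full.StandardAux

/-!
P096: conjugacy on finite sets gives conjugacy. The weak limit of the implementing unitaries moves
one algebra within the square of the distance of the other; iterate.
-/

namespace Vale.Agent.P096.Semi

open scoped InnerProductSpace
open Filter Topology
open Full.Uniform (WLim exists_wLim)
open Vale.Agent.P096.Two

universe u

variable {H : Type u} [NormedAddCommGroup H] [InnerProductSpace ℂ H] [CompleteSpace H]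

/-- On every pair of finite sets of contractions a unitary near one carries the one algebra into
the other. -/
def Solvable (c : ℝ) (M N : VonNeumannAlgebra H) : Prop :=
  ∀ F G : Finset (H →L[ℂ] H), (∀ x ∈ F, x ∈ M) → (∀ y ∈ G, y ∈ N) →
    ∃ u ∈ unitary (H →L[ℂ] H), ‖u - 1‖ ≤ c ∧ (∀ x ∈ F, u * x * star u ∈ N) ∧
      ∀ y ∈ G, star u * y * u ∈ M

theorem isClosed_vn (M : VonNeumannAlgebra H) : IsClosed (M : Set (H →L[ℂ] H)) := by
  rw [← M.centralizer_centralizer]
  exact Set.isClosed_centralizer _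

theorem unitary_norm_le {u : H →L[ℂ] H} (hu : u ∈ unitary (H →L[ℂ] H)) : ‖u‖ ≤ 1 :=
  ContinuousLinearMap.opNorm_le_bound _ zero_le_one fun z => by
    rw [one_mul]; exact (Unitary.norm_map ⟨u, hu⟩ z).le

/-- Weak limits of bounded operators. -/
theorem exists_opLim {σ : Type*} (U : Ultrafilter σ) (B : σ → (H →L[ℂ] H)) {r : ℝ} (hr : 0 ≤ r)
    (h : ∀ i, ‖B i‖ ≤ r) :
    ∃ T : H →L[ℂ] H, ‖T‖ ≤ r ∧ ∀ v, WLim (U : Filter σ) (fun i => B i v) (T v) := by
  choose f hf using fun v => exists_wLim U (fun i => B i v)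
    (Eventually.of_forall fun i => (B i).le_of_opNorm_le (h i) v)
  let F : H →ₗ[ℂ] H :=
    { toFun := f
      map_add' := fun v w => (hf (v + w)).unique (((hf v).add (hf w)).congr
        (Eventually.of_forall fun i => ((B i).map_add v w).symm))
      map_smul' := fun c v => (hf (c • v)).unique (((hf v).smul c).congr
        (Eventually.of_forall fun i => ((B i).map_smul c v).symm)) }
  exact ⟨F.mkContinuous r fun v => (hf v).norm_le
      (Eventually.of_forall fun i => (B i).le_of_opNorm_le (h i) v),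
    F.mkContinuous_norm_le hr _, hf⟩

theorem wLim_star {σ : Type*} {F : Filter σ} {B : σ → (H →L[ℂ] H)} {T : H →L[ℂ] H}
    (h : ∀ v, WLim F (fun i => B i v) (T v)) (v : H) :
    WLim F (fun i => star (B i) v) (star T v) := fun ζ => by
  have h1 := ((RCLike.continuous_conj (K := ℂ)).tendsto _).comp (h ζ v)
  simp only [ContinuousLinearMap.star_eq_adjoint, ContinuousLinearMap.adjoint_inner_right]
  refine (h1.congr fun i => ?_).trans (le_of_eq ?_)
  · simp only [Function.comp_apply, inner_conj_symm]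
  · rw [inner_conj_symm]

/-- Weak limits of elements of an algebra stay in it. -/
theorem mem_of_wLim {σ : Type*} {U : Ultrafilter σ} {N : VonNeumannAlgebra H}
    {B : σ → (H →L[ℂ] H)} {T : H →L[ℂ] H}
    (h : ∀ v, WLim (U : Filter σ) (fun i => B i v) (T v))
    (hB : ∀ᶠ i in (U : Filter σ), B i ∈ N) : T ∈ N := by
  rw [← SetLike.mem_coe, ← N.centralizer_centralizer]
  intro a ha
  refine ContinuousLinearMap.ext fun v => ?_
  exact ((h v).map a).unique ((h (a v)).congr (hB.mono fun i hi =>
    (DFunLike.congr_fun (ha (B i) hi) v).trans rfl))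

/-- The Cayley transform. -/
theorem exists_unitary {A : H →L[ℂ] H} (hA : star A = -A) (h1 : ‖A‖ ≤ 1) :
    ∃ v ∈ unitary (H →L[ℂ] H), ‖v - 1 - A‖ ≤ ‖A‖ * ‖A‖ := by
  set S : H →L[ℂ] H := (1 / 2 : ℂ) • A with hS
  have hnS : ‖S‖ < 1 := by rw [hS, norm_smul]; norm_num; linarith
  set U : (H →L[ℂ] H)ˣ := Units.oneSub S hnS
  set w : H →L[ℂ] H := (↑U⁻¹ : H →L[ℂ] H)
  have hw1 : (1 - S) * w = 1 := U.mul_inv
  have hw2 : w * (1 - S) = 1 := U.inv_mul
  have hSs : star S = -S := by
    have h2 : star (1 / 2 : ℂ) = 1 / 2 := by norm_num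
    rw [hS, star_smul, hA, h2, smul_neg]
  have hcomm : w * (1 + S) = (1 + S) * w := by
    have e : (1 - S) * (1 + S) = (1 + S) * (1 - S) := by noncomm_ring
    calc w * (1 + S) = w * ((1 + S) * (1 - S)) * w := by
          simp only [mul_assoc, hw1, mul_one]
      _ = w * ((1 - S) * (1 + S)) * w := by rw [e]
      _ = (1 + S) * w := by rw [← mul_assoc w, hw2, one_mul]
  have hsv : star ((1 + S) * w) = star w * (1 - S) := by
    rw [star_mul, star_add, star_one, hSs, sub_eq_add_neg]
  have hsw : star w * (1 + S) = 1 := by simpa [hSs] using congrArg star hw1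
  have hsw' : (1 + S) * star w = 1 := by simpa [hSs] using congrArg star hw2
  refine ⟨(1 + S) * w, Unitary.mem_iff.2 ⟨?_, ?_⟩, ?_⟩
  · calc star ((1 + S) * w) * ((1 + S) * w) = star w * ((1 - S) * (1 + S)) * w := by
          rw [hsv]; noncomm_ring
      _ = star w * ((1 + S) * (1 - S)) * w := by noncomm_ring
      _ = (star w * (1 + S)) * ((1 - S) * w) := by noncomm_ring
      _ = 1 := by rw [hsw, hw1, one_mul]
  · have hsv2 : star ((1 + S) * w) = (1 - S) * star w := by
      rw [← hcomm, star_mul, star_add, star_one, hSs, sub_eq_add_neg]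
    calc (1 + S) * w * star ((1 + S) * w) = (1 + S) * (w * (1 - S)) * star w := by
          rw [hsv2]; noncomm_ring
      _ = 1 := by rw [hw2, mul_one, hsw']
  · have hT : A = S + S := by rw [hS, ← add_smul]; norm_num
    have hw : w - 1 = S * w := by
      calc w - 1 = w - (1 - S) * w := by rw [hw1]
        _ = S * w := by noncomm_ring
    have hwn : ‖w‖ ≤ 2 := by
      have h3 : ‖w‖ ≤ 1 + ‖S‖ * ‖w‖ := by
        calc ‖w‖ = ‖1 + S * w‖ := by rw [← hw]; abel_nf
          _ ≤ _ := (norm_add_le _ _).trans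
            (add_le_add ContinuousLinearMap.norm_id_le (norm_mul_le _ _))
      have h4 : ‖S‖ ≤ 1 / 2 := by rw [hS, norm_smul]; norm_num; linarith
      nlinarith [norm_nonneg w]
    have e : (1 + S) * w - 1 - A = A * (S * w) := by
      calc (1 + S) * w - 1 - A = (1 + S) * w - (1 - S) * w - A := by rw [hw1]
        _ = A * (w - 1) := by rw [hT]; noncomm_ring
        _ = _ := by rw [hw]
    rw [e]
    calc ‖A * (S * w)‖ ≤ ‖A‖ * (‖S‖ * ‖w‖) :=
          (norm_mul_le _ _).trans (mul_le_mul_of_nonneg_left (norm_mul_le _ _) (norm_nonneg _))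
      _ ≤ ‖A‖ * ((‖A‖ / 2) * 2) := by
          gcongr
          rw [hS, norm_smul]; norm_num; linarith
      _ = _ := by ring

/-- A limit of conjugates is the conjugate by the Cayley transform up to second order. -/
theorem conj_limit {σ : Type*} {U : Ultrafilter σ} {u : σ → (H →L[ℂ] H)} {c : ℝ} (hc : 0 ≤ c)
    (hc1 : c ≤ 1 / 4) (hun : ∀ i, ‖u i - 1‖ ≤ c) {S A v x y : H →L[ℂ] H}
    (hS : ∀ w, WLim (U : Filter σ) (fun i => (u i - 1) w) (S w))
    (hSn : ‖S‖ ≤ c) (hR : ‖S + star S‖ ≤ c * c) (hA : A = (1 / 2 : ℂ) • (S - star S))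
    (hv : v ∈ unitary (H →L[ℂ] H)) (hv1 : ‖v - 1 - A‖ ≤ ‖A‖ * ‖A‖) (hx1 : ‖x‖ ≤ 1)
    (hy : ∀ w, WLim (U : Filter σ) (fun i => (u i * x * star (u i)) w) (y w)) :
    ‖v * x * star v - y‖ ≤ 12 * (c * c) := by
  have hA1 : ‖A‖ ≤ c := by
    rw [hA, norm_smul]
    have := norm_sub_le S (star S)
    rw [norm_star] at this
    norm_num
    linarith
  obtain ⟨h1, h2⟩ := Unitary.mem_iff.1 hv
  have hK : ‖y - (x + (S * x + x * star S))‖ ≤ c * c := by
    refine ContinuousLinearMap.opNorm_le_bound _ (mul_nonneg hc hc) fun w => ?_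
    have hz := (((hy w).sub (WLim.const (x w))).sub (((hS (x w))).add ((wLim_star hS w).map x)))
    refine le_trans (le_of_eq ?_) (hz.norm_le (r := c * c * ‖w‖) (Eventually.of_forall fun i => ?_))
    · simp only [sub_apply, add_apply, mul_apply_eq_comp]; congr 1; abel
    · have e : u i * x * star (u i) - x - ((u i - 1) * x + x * star (u i - 1)) =
          (u i - 1) * x * star (u i - 1) := by
        simp only [star_sub, star_one]; noncomm_ring
      have e2 := DFunLike.congr_fun e w
      simp only [sub_apply, add_apply, mul_apply_eq_comp] at e2 ⊢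
      rw [e2]
      have hb : ‖(u i - 1) * x * star (u i - 1)‖ ≤ c * c := by
        refine (norm_mul_le _ _).trans ((mul_le_mul (norm_mul_le _ _) le_rfl (norm_nonneg _)
          (by positivity)).trans ?_)
        rw [norm_star]
        calc ‖u i - 1‖ * ‖x‖ * ‖u i - 1‖ ≤ c * 1 * c := by gcongr <;> exact hun i
          _ = _ := by ring
      have := ((u i - 1) * x * star (u i - 1)).le_of_opNorm_le hb w
      simpa [mul_apply_eq_comp] using this
  have hN := Full.Std.norm_conj_sub_comm_le h1 h2 A x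
  have hB : ‖(A * x - x * A) - (S * x + x * star S)‖ ≤ c * c := by
    have e : (A * x - x * A) - (S * x + x * star S) =
        (-1 / 2 : ℂ) • ((S + star S) * x + x * (S + star S)) := by
      rw [hA]
      simp only [smul_mul_assoc, mul_smul_comm, sub_mul, mul_sub, add_mul, mul_add]
      module
    rw [e, norm_smul]
    refine (mul_le_mul_of_nonneg_left ((norm_add_le _ _).trans (add_le_add (norm_mul_le _ _)
      (norm_mul_le _ _))) (norm_nonneg _)).trans ?_
    norm_num
    nlinarith [norm_nonneg (S + star S), norm_nonneg x]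
  have hv2 : ‖v - 1‖ ≤ ‖A‖ + ‖A‖ * ‖A‖ := by
    have := norm_add_le A (v - 1 - A)
    rw [add_sub_cancel] at this
    linarith
  have e : v * x * star v - y = (v * x * star v - x - (A * x - x * A)) +
      ((A * x - x * A) - (S * x + x * star S)) - (y - (x + (S * x + x * star S))) := by abel
  rw [e]
  refine (norm_sub_le _ _).trans ((add_le_add (norm_add_le _ _) le_rfl).trans ?_)
  have hb : 2 * ‖v - 1 - A‖ + 2 * ‖A‖ * ‖v - 1‖ ≤ 10 * (c * c) := by
    nlinarith [norm_nonneg A, mul_le_mul hA1 hA1 (norm_nonneg A) hc,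
      mul_le_mul_of_nonneg_left hv2 (norm_nonneg A), norm_nonneg (v - 1)]
  have := hN.trans (mul_le_mul hb hx1 (norm_nonneg _) (by positivity))
  linarith

/-- One step: within the square of the distance. -/
theorem exists_step {M N : VonNeumannAlgebra H} {c : ℝ} (hc : 0 ≤ c) (hc1 : c ≤ 1 / 4)
    (h : Solvable c M N) : ∃ v : unitary (H →L[ℂ] H), ‖(v : H →L[ℂ] H) - 1‖ ≤ 2 * c ∧
      Lit.IsClose H M (conjAlg v N) (12 * (c * c)) := by
  classical
  let σ := Finset (H →L[ℂ] H) × Finset (H →L[ℂ] H)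
  choose u huU hu1 huF huG using fun i : σ =>
    h (i.1.filter (· ∈ M)) (i.2.filter (· ∈ N)) (fun _ hx => (Finset.mem_filter.1 hx).2)
      (fun _ hy => (Finset.mem_filter.1 hy).2)
  let U : Ultrafilter σ := Ultrafilter.of atTop
  have hevM : ∀ x ∈ M, ∀ᶠ i in (U : Filter σ), u i * x * star (u i) ∈ N := fun x hx =>
    (Filter.Eventually.filter_mono (Ultrafilter.of_le _)
      (eventually_ge_atTop (({x}, ∅) : σ))).mono fun i hi =>
        huF i x (Finset.mem_filter.2 ⟨(Prod.le_def.1 hi).1 (Finset.mem_singleton_self x), hx⟩)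
  have hevN : ∀ y ∈ N, ∀ᶠ i in (U : Filter σ), star (u i) * y * u i ∈ M := fun y hy =>
    (Filter.Eventually.filter_mono (Ultrafilter.of_le _)
      (eventually_ge_atTop ((∅, {y}) : σ))).mono fun i hi =>
        huG i y (Finset.mem_filter.2 ⟨(Prod.le_def.1 hi).2 (Finset.mem_singleton_self y), hy⟩)
  obtain ⟨S, hSn, hS⟩ := exists_opLim U (fun i => u i - 1) hc hu1
  have hR : ‖S + star S‖ ≤ c * c := by
    refine ContinuousLinearMap.opNorm_le_bound _ (mul_nonneg hc hc) fun w => ?_
    rw [add_apply]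
    refine ((hS w).add (wLim_star hS w)).norm_le (Eventually.of_forall fun i => ?_)
    have e : (u i - 1) + star (u i - 1) = -(star (u i - 1) * (u i - 1)) := by
      simp only [star_sub, star_one, sub_mul, mul_sub, one_mul, mul_one,
        (Unitary.mem_iff.1 (huU i)).1]
      abel
    have e2 := DFunLike.congr_fun e w
    simp only [add_apply, neg_apply] at e2
    rw [e2, norm_neg]
    refine (ContinuousLinearMap.le_opNorm _ _).trans
      (mul_le_mul_of_nonneg_right ?_ (norm_nonneg _))
    rw [CStarRing.norm_star_mul_self]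
    exact mul_le_mul (hu1 i) (hu1 i) (norm_nonneg _) hc
  set A : H →L[ℂ] H := (1 / 2 : ℂ) • (S - star S) with hA
  have hAs : star A = -A := by
    rw [hA, star_smul, star_sub, star_star, ← smul_neg, neg_sub,
      show star (1 / 2 : ℂ) = 1 / 2 by norm_num]
  have hAn : ‖A‖ ≤ c := by
    rw [hA, norm_smul]
    have := norm_sub_le S (star S)
    rw [norm_star] at this
    norm_num
    linarith
  obtain ⟨v, hv, hv1⟩ := exists_unitary hAs (by linarith)
  refine ⟨⟨v, hv⟩, ?_, fun x hx hx1 => ?_, fun y hy hy1 => ?_⟩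
  · have := norm_add_le A (v - 1 - A)
    rw [add_sub_cancel] at this
    nlinarith [norm_nonneg A]
  · obtain ⟨Y, -, hY⟩ := exists_opLim U (fun i => u i * x * star (u i)) zero_le_one fun i => by
      refine (norm_mul_le _ _).trans (mul_le_one₀ ((norm_mul_le _ _).trans
        (mul_le_one₀ (unitary_norm_le (huU i)) (norm_nonneg _) hx1)) (norm_nonneg _) ?_)
      exact unitary_norm_le (Unitary.star_mem (huU i))
    have hb := conj_limit hc hc1 hu1 hS hSn hR hA hv hv1 hx1 hY
    obtain ⟨h1, h2⟩ := Unitary.mem_iff.1 hv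
    refine ⟨star v * Y * v, mem_conjAlg.2 ?_, ?_⟩
    · show v * (star v * Y * v) * star v ∈ N
      rw [show v * (star v * Y * v) * star v = (v * star v) * Y * (v * star v) by
        simp only [mul_assoc], h2, one_mul, mul_one]
      exact mem_of_wLim hY (hevM x hx)
    · show ‖x - star v * Y * v‖ ≤ _
      have e : x - star v * Y * v = star v * (v * x * star v - Y) * v := by
        have : star v * (v * x * star v) * v = x := by
          rw [show star v * (v * x * star v) * v = (star v * v) * x * (star v * v) by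
            simp only [mul_assoc], h1, one_mul, mul_one]
        rw [mul_sub, sub_mul, this]
      rw [e, CStarRing.norm_mul_mem_unitary _ hv,
        CStarRing.norm_mem_unitary_mul _ (Unitary.star_mem hv)]
      exact hb
  · have hyN := mem_conjAlg.1 hy
    have hy1' : ‖y‖ ≤ 1 := hy1
    set Z : H →L[ℂ] H := v * y * star v
    have hZ1 : ‖Z‖ ≤ 1 := by
      show ‖v * y * star v‖ ≤ 1
      rwa [CStarRing.norm_mul_mem_unitary _ (Unitary.star_mem hv),
        CStarRing.norm_mem_unitary_mul _ hv]
    obtain ⟨X, -, hX⟩ := exists_opLim U (fun i => star (u i) * Z * u i) zero_le_one fun i => by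
      refine (norm_mul_le _ _).trans (mul_le_one₀ ((norm_mul_le _ _).trans
        (mul_le_one₀ (unitary_norm_le (Unitary.star_mem (huU i))) (norm_nonneg _) hZ1))
        (norm_nonneg _) ?_)
      exact unitary_norm_le (huU i)
    refine ⟨X, mem_of_wLim hX (hevN _ hyN), ?_⟩
    show ‖y - X‖ ≤ _
    have hS' : ∀ w, WLim (U : Filter σ) (fun i => (star (u i) - 1) w) (star S w) := fun w =>
      (wLim_star hS w).congr (Eventually.of_forall fun i => by rw [star_sub, star_one])
    have hb := conj_limit (u := fun i => star (u i)) (A := -A) (v := star v) hc hc1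
      (fun i => by rw [← norm_star, star_sub, star_star, star_one]; exact hu1 i) hS'
      ((norm_star S).trans_le hSn) (by rw [star_star, add_comm]; exact hR)
      (by rw [hA, star_star, ← smul_neg, neg_sub]) (Unitary.star_mem hv)
      (by
        have e : star v - 1 - -A = star (v - 1 - A) := by
          rw [star_sub, star_sub, star_one, hAs]
        rw [e, norm_star, norm_neg]
        exact hv1) hZ1
      (fun w => (hX w).congr (Eventually.of_forall fun i => by rw [star_star]))
    have e : star v * Z * star (star v) = y := by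
      obtain ⟨h1, h2⟩ := Unitary.mem_iff.1 hv
      show star v * (v * y * star v) * star (star v) = y
      rw [star_star, show star v * (v * y * star v) * v = (star v * v) * y * (star v * v) by
        simp only [mul_assoc], h1, one_mul, mul_one]
    rwa [e] at hb

/-- Conjugacy on finite sets, with a linear bound, gives conjugacy. -/
theorem nearConj_of_solvable {M : VonNeumannAlgebra H} {C δ : ℝ} (hC : 0 ≤ C)
    (h : ∀ (N : VonNeumannAlgebra H) (γ : ℝ), 0 ≤ γ → γ < δ → Lit.IsClose H M N γ →
      Solvable (C * γ) M N) {N : VonNeumannAlgebra H} {γ : ℝ} (hγ : 0 ≤ γ) (hlt : γ < δ)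
    (hsmall : 24 * (C + 1) * (C + 1) * γ ≤ 1) (hclose : Lit.IsClose H M N γ) :
    NearConj M N (4 * C * γ) := by
  let g : ℕ → ℝ := fun n => γ * (1 / 2) ^ n
  have hg0 : ∀ n, 0 ≤ g n := fun n => by simp only [g]; positivity
  have hgle : ∀ n, g n ≤ γ := fun n =>
    mul_le_of_le_one_right hγ (pow_le_one₀ (by norm_num) (by norm_num))
  let St := {p : VonNeumannAlgebra H × (H →L[ℂ] H) // p.2 ∈ unitary (H →L[ℂ] H) ∧
    ∀ y, y ∈ p.1 ↔ p.2 * y * star p.2 ∈ N}
  have stepEx : ∀ (n : ℕ) (p : St), Lit.IsClose H M p.1.1 (g n) →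
      ∃ q : St, Lit.IsClose H M q.1.1 (g (n + 1)) ∧ ‖q.1.2 - p.1.2‖ ≤ 2 * (C * g n) := by
    rintro n ⟨⟨N₁, U⟩, hU, hN₁⟩ hcl
    have hCg : C * g n ≤ 1 / 4 := by
      nlinarith [mul_le_mul_of_nonneg_left (hgle n) hC, mul_nonneg hC hγ,
        mul_nonneg (mul_nonneg hC hC) hγ]
    obtain ⟨v, hv1, hv2⟩ := exists_step (mul_nonneg hC (hg0 n)) hCg
      (h N₁ (g n) (hg0 n) ((hgle n).trans_lt hlt) hcl)
    have hle : 12 * (C * g n * (C * g n)) ≤ g (n + 1) := by
      have e : g (n + 1) = g n / 2 := by simp only [g, pow_succ]; ring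
      rw [e]
      have h1 : 24 * (C * C) * g n ≤ 1 := by
        nlinarith [mul_le_mul_of_nonneg_left (hgle n) (mul_nonneg hC hC), mul_nonneg hC hγ]
      nlinarith [mul_le_mul_of_nonneg_right h1 (hg0 n)]
    refine ⟨⟨(conjAlg v N₁, U * v), mul_mem hU v.2, fun y => ?_⟩,
      ⟨fun z hz h1 => (hv2.1 z hz h1).imp fun w hw => ⟨hw.1, hw.2.trans hle⟩,
        fun z hz h1 => (hv2.2 z hz h1).imp fun w hw => ⟨hw.1, hw.2.trans hle⟩⟩, ?_⟩
    · show y ∈ conjAlg v N₁ ↔ _
      rw [mem_conjAlg, hN₁]
      simp only [star_mul, mul_assoc]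
    · show ‖U * (v : H →L[ℂ] H) - U‖ ≤ _
      rw [← mul_sub_one, CStarRing.norm_mem_unitary_mul _ hU]
      exact hv1
  classical
  let St' := fun n => {p : St // Lit.IsClose H M p.1.1 (g n)}
  choose nxt hnxt1 hnxt2 using stepEx
  let start : St := ⟨(N, 1), one_mem _, fun y => by simp⟩
  have hstart : Lit.IsClose H M start.1.1 (g 0) := by
    show Lit.IsClose H M N (γ * (1 / 2) ^ 0)
    rwa [pow_zero, mul_one]
  let seq : ∀ n, St' n := fun n => Nat.rec (motive := St') ⟨start, hstart⟩
    (fun k p => ⟨nxt k p.1 p.2, hnxt1 k p.1 p.2⟩) n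
  set U : ℕ → (H →L[ℂ] H) := fun n => (seq n).1.1.2 with hUdef
  have hU : ∀ n, U n ∈ unitary (H →L[ℂ] H) := fun n => (seq n).1.2.1
  have hdist : ∀ n, dist (U n) (U (n + 1)) ≤ 2 * C * γ * (1 / 2) ^ n := fun n => by
    rw [dist_comm, dist_eq_norm]
    exact (hnxt2 n (seq n).1 (seq n).2).trans_eq (by simp only [g]; ring)
  have hcs := cauchySeq_of_le_geometric _ _ (by norm_num) hdist
  obtain ⟨u, hu⟩ := cauchySeq_tendsto_of_complete hcs
  have hu0 := dist_le_of_le_geometric_of_tendsto₀ _ _ (by norm_num) hdist hu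
  have hstar : Tendsto (fun n => star (U n)) atTop (𝓝 (star u)) :=
    (continuous_star.tendsto u).comp hu
  have huU : u ∈ unitary (H →L[ℂ] H) := Unitary.mem_iff.2
    ⟨tendsto_nhds_unique (hstar.mul hu)
        (tendsto_const_nhds.congr fun n => ((Unitary.mem_iff.1 (hU n)).1).symm),
      tendsto_nhds_unique (hu.mul hstar)
        (tendsto_const_nhds.congr fun n => ((Unitary.mem_iff.1 (hU n)).2).symm)⟩
  have hg : Tendsto g atTop (𝓝 0) := by
    have := (tendsto_pow_atTop_nhds_zero_of_lt_one (by norm_num : (0 : ℝ) ≤ 1 / 2)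
      (by norm_num)).const_mul γ
    rw [mul_zero] at this
    exact this
  refine ⟨u, isUnitaryOp_of_unitary huU, ?_, fun x hx => ⟨u * x * star u, ?_,
    intertwines_of_eq huU rfl⟩, fun y hy => ⟨star u * y * u, ?_, intertwines_of_eq huU ?_⟩⟩
  · show ‖u - 1‖ ≤ _
    have e : U 0 = 1 := rfl
    rw [e, dist_comm, dist_eq_norm] at hu0
    exact hu0.trans_eq (by ring)
  · choose y hy hxy using fun n => near_scaled (S := M.toStarSubalgebra)
      (T := (seq n).1.1.1.toStarSubalgebra) (fun z hz h1 => (seq n).2.1 z hz h1) hx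
    have h0 : Tendsto (fun n => x - y n) atTop (𝓝 0) :=
      squeeze_zero_norm hxy (by simpa using hg.mul_const ‖x‖)
    have hyx : Tendsto y atTop (𝓝 x) := by
      simpa using (tendsto_const_nhds (x := x)).sub h0
    exact (isClosed_vn N).mem_of_tendsto ((hu.mul hyx).mul hstar)
      (Eventually.of_forall fun n => ((seq n).1.2.2 (y n)).1 (hy n))
  · have hmem : ∀ n, star (U n) * y * U n ∈ (seq n).1.1.1 := fun n => by
      refine ((seq n).1.2.2 _).2 ?_
      show U n * (star (U n) * y * U n) * star (U n) ∈ N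
      rw [show U n * (star (U n) * y * U n) * star (U n) =
        (U n * star (U n)) * y * (U n * star (U n)) by simp only [mul_assoc],
        (Unitary.mem_iff.1 (hU n)).2, one_mul, mul_one]
      exact hy
    choose x hx hxy using fun n => near_scaled (S := (seq n).1.1.1.toStarSubalgebra)
      (T := M.toStarSubalgebra) (fun z hz h1 => (seq n).2.2 z hz h1) (hmem n)
    have hbd : ∀ n, ‖star (U n) * y * U n‖ ≤ ‖y‖ := fun n => by
      rw [CStarRing.norm_mul_mem_unitary _ (hU n),
        CStarRing.norm_mem_unitary_mul _ (Unitary.star_mem (hU n))]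
    have h0 : Tendsto (fun n => star (U n) * y * U n - x n) atTop (𝓝 0) :=
      squeeze_zero_norm (fun n => (hxy n).trans (mul_le_mul_of_nonneg_left (hbd n) (hg0 n)))
        (by simpa using hg.mul_const ‖y‖)
    have hlim : Tendsto x atTop (𝓝 (star u * y * u)) := by
      simpa using (((hstar.mul_const y).mul hu)).sub h0
    exact (isClosed_vn M).mem_of_tendsto hlim (Eventually.of_forall hx)
  · obtain ⟨h1, h2⟩ := Unitary.mem_iff.1 huU
    rw [show u * (star u * y * u) * star u = (u * star u) * y * (u * star u) by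
      simp only [mul_assoc], h2, one_mul, mul_one]

end Vale.Agent.P096.Semi
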