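import Vale.Agent.P096.Semi.Blocks
import Vale.Agent.P096.Two.Reduce

/-!
P096: a central projection of one algebra has a unique central partner in a close algebra, and one
unitary near the identity carries an orthogonal family of them to the partners.
-/

open scoped InnerProductSpace
open Filter Topology
open Vale.Agent.P096.Two

namespace Vale.Agent.P096.Semi

universe u v

variable {H : Type u} [NormedAddCommGroup H] [InnerProductSpace ℂ H] [CompleteSpace H]
  {M N : VonNeumannAlgebra H} {γ : ℝ} {ι : Type v}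

/-- A central projection of `M`. -/
structure CProj (M : VonNeumannAlgebra H) (z : H →L[ℂ] H) : Prop where
  proj : IsStarProjection z
  mem : z ∈ M
  comm : ∀ x ∈ M, z * x = x * z

namespace CProj

lemma mul {p q : H →L[ℂ] H} (hp : CProj M p) (hq : CProj M q) : CProj M (p * q) :=
  ⟨hp.proj.mul hq.proj (hp.comm q hq.mem), mul_mem hp.mem hq.mem, fun x hx => by
    rw [mul_assoc, hq.comm x hx, ← mul_assoc, hp.comm x hx, mul_assoc]⟩

lemma one_sub {p : H →L[ℂ] H} (hp : CProj M p) : CProj M (1 - p) :=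
  ⟨hp.proj.one_sub, sub_mem (one_mem M) hp.mem, fun x hx => by
    rw [sub_mul, mul_sub, one_mul, mul_one, hp.comm x hx]⟩

lemma zero (M : VonNeumannAlgebra H) : CProj M 0 :=
  ⟨.zero _, zero_mem M, fun x _ => by rw [zero_mul, mul_zero]⟩

lemma sum {z : ι → (H →L[ℂ] H)} (hz : ∀ i, CProj M (z i))
    (ho : ∀ i j, i ≠ j → z i * z j = 0) (F : Finset ι) : CProj M (∑ i ∈ F, z i) :=
  ⟨(sum_proj (fun i => (hz i).proj) ho F).1, sum_mem fun i _ => (hz i).mem, fun x hx => by
    rw [Finset.sum_mul, Finset.mul_sum]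
    exact Finset.sum_congr rfl fun i _ => (hz i).comm x hx⟩

/-- Two central projections nearer than one are equal. -/
lemma eq_of_near {p q : H →L[ℂ] H} (hp : CProj M p) (hq : CProj M q) (h : ‖p - q‖ < 1) :
    p = q := by
  have hpq := hp.comm q hq.mem
  have h1 : ∀ w : H →L[ℂ] H, p * (p * w) = p * w := fun w => by
    rw [← mul_assoc, hp.proj.isIdempotentElem.eq]
  have h2 : ∀ w : H →L[ℂ] H, q * (q * w) = q * w := fun w => by
    rw [← mul_assoc, hq.proj.isIdempotentElem.eq]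
  have h3 : ∀ w : H →L[ℂ] H, q * (p * w) = p * (q * w) := fun w => by
    rw [← mul_assoc, ← hpq, mul_assoc]
  have e : (p - q) * (p - q) * (p - q) = p - q := by
    simp only [mul_sub, sub_mul, mul_assoc, hp.proj.isIdempotentElem.eq,
      hq.proj.isIdempotentElem.eq, ← hpq, h1]
    abel
  refine sub_eq_zero.1 (norm_eq_zero.1 ?_)
  by_contra hne
  have hpos : 0 < ‖p - q‖ := lt_of_le_of_ne (norm_nonneg _) (Ne.symm hne)
  have hle : ‖p - q‖ ≤ ‖p - q‖ * ‖p - q‖ * ‖p - q‖ := by
    conv_lhs => rw [← e]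
    exact (norm_mul_le _ _).trans (mul_le_mul_of_nonneg_right (norm_mul_le _ _) (norm_nonneg _))
  have h4 : ‖p - q‖ * ‖p - q‖ < 1 := mul_lt_one_of_nonneg_of_lt_one_left (norm_nonneg _) h h.le
  nlinarith

end CProj

lemma norm_proj_mul_sub_le {p q p' q' : H →L[ℂ] H} (hq : IsStarProjection q)
    (hp' : IsStarProjection p') {a b : ℝ} (h1 : ‖p - p'‖ ≤ a) (h2 : ‖q - q'‖ ≤ b) :
    ‖p * q - p' * q'‖ ≤ a + b := by
  rw [show p * q - p' * q' = (p - p') * q + p' * (q - q') by noncomm_ring]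
  refine (norm_add_le _ _).trans (add_le_add ?_ ?_)
  · exact (norm_mul_le _ _).trans
      ((mul_le_of_le_one_right (norm_nonneg _) hq.norm_le).trans h1)
  · exact (norm_mul_le _ _).trans
      ((mul_le_of_le_one_left (norm_nonneg _) hp'.norm_le).trans h2)

/-- A central projection has a central partner. -/
lemma exists_partner (hc : Lit.IsClose H M N γ) (hγ0 : 0 ≤ γ) (hγ : γ ≤ 1 / 10000)
    {z : H →L[ℂ] H} (hz : CProj M z) :
    ∃ f, CProj N f ∧ ‖f - z‖ ≤ 320 * γ := by
  obtain ⟨x, hx, hxz⟩ := hc.1 z hz.mem hz.proj.norm_le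
  obtain ⟨v, hv1, hvN⟩ := exists_move hz.proj hx hxz (by linarith)
  set f := (v : H →L[ℂ] H) * z * star (v : H →L[ℂ] H) with hf
  have hv := Unitary.mem_iff.1 v.2
  have hfp : IsStarProjection f := by
    refine ⟨?_, ?_⟩
    · show f * f = f
      calc f * f = (v : H →L[ℂ] H) * (z * (star (v : H →L[ℂ] H) * v) * z) *
            star (v : H →L[ℂ] H) := by simp only [hf, mul_assoc]
        _ = f := by rw [hv.1, mul_one, hz.proj.isIdempotentElem.eq]
    · exact hz.proj.isSelfAdjoint.conjugate _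
  have hfz : ‖f - z‖ ≤ 320 * γ := by
    refine (norm_conj_sub_le v.2 z).trans ?_
    calc 2 * ‖(v : H →L[ℂ] H) - 1‖ * ‖z‖ ≤ 2 * (160 * γ) * 1 := by
          gcongr
          exact hz.proj.norm_le
      _ = 320 * γ := by ring
  refine ⟨f, ⟨hfp, hvN, ?_⟩, hfz⟩
  have hcomm : ∀ y ∈ N, ‖f * y - y * f‖ ≤ 642 * γ * ‖y‖ := by
    intro y hy
    obtain ⟨m, hm, hmy⟩ := near_scaled (S := N.toStarSubalgebra) (T := M.toStarSubalgebra)
      (fun w hw h1 => hc.2 w hw h1) hy
    have e : f * y - y * f =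
        ((f - z) * y - y * (f - z)) + (z * (y - m) - (y - m) * z) := by
      rw [sub_mul, mul_sub, mul_sub z, sub_mul y m, hz.comm m hm]; abel
    rw [e]
    refine (norm_add_le _ _).trans ?_
    have a1 := norm_sub_le ((f - z) * y) (y * (f - z))
    have a2 := norm_sub_le (z * (y - m)) ((y - m) * z)
    have b1 : ‖(f - z) * y‖ ≤ 320 * γ * ‖y‖ :=
      (norm_mul_le _ _).trans (mul_le_mul_of_nonneg_right hfz (norm_nonneg _))
    have b2 : ‖y * (f - z)‖ ≤ 320 * γ * ‖y‖ :=
      ((norm_mul_le _ _).trans (mul_le_mul_of_nonneg_left hfz (norm_nonneg _))).trans_eq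
        (mul_comm _ _)
    have b3 : ‖z * (y - m)‖ ≤ γ * ‖y‖ :=
      ((norm_mul_le _ _).trans (mul_le_of_le_one_left (norm_nonneg _) hz.proj.norm_le)).trans hmy
    have b4 : ‖(y - m) * z‖ ≤ γ * ‖y‖ :=
      ((norm_mul_le _ _).trans (mul_le_of_le_one_right (norm_nonneg _) hz.proj.norm_le)).trans hmy
    linarith
  have hff : f * f = f := hfp.isIdempotentElem.eq
  have key : ∀ y ∈ N, f * y * (1 - f) = 0 := by
    intro y hy
    have hX : f * y * (1 - f) ∈ N := mul_mem (mul_mem hvN hy) (sub_mem (one_mem N) hvN)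
    have h1 := hcomm _ hX
    rw [show f * (f * y * (1 - f)) - f * y * (1 - f) * f = f * y * (1 - f) by
      rw [← mul_assoc, ← mul_assoc, hff, mul_assoc (f * y) (1 - f) f, sub_mul 1 f f, one_mul, hff,
        sub_self, mul_zero, sub_zero]] at h1
    exact norm_eq_zero.1 (by nlinarith [norm_nonneg (f * y * (1 - f))])
  intro y hy
  have h1 := key y hy
  have h2 := congrArg star (key (star y) (star_mem hy))
  rw [star_mul, star_mul, star_star, star_sub, star_one, hfp.isSelfAdjoint.star_eq, star_zero]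
    at h2
  rw [mul_sub, mul_one, sub_eq_zero] at h1
  rw [sub_mul, one_mul, sub_eq_zero, ← mul_assoc] at h2
  exact h1.trans h2.symm

/-- The partners of an orthogonal family are orthogonal, and partners add. -/
lemma partner_sum (hc : Lit.IsClose H M N γ) (hγ0 : 0 ≤ γ) (hγ : γ ≤ 1 / 10000)
    {z f : ι → (H →L[ℂ] H)} (hz : ∀ i, CProj M (z i)) (hzo : ∀ i j, i ≠ j → z i * z j = 0)
    (hf : ∀ i, CProj N (f i)) (hd : ∀ i, ‖f i - z i‖ ≤ 320 * γ) :
    (∀ i j, i ≠ j → f i * f j = 0) ∧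
      ∀ F : Finset ι, ‖(∑ i ∈ F, f i) - ∑ i ∈ F, z i‖ ≤ 320 * γ := by
  have ho : ∀ i j, i ≠ j → f i * f j = 0 := fun i j hij => by
    refine ((hf i).mul (hf j)).eq_of_near (CProj.zero N) ?_
    have := norm_proj_mul_sub_le (hf j).proj (hz i).proj (hd i) (hd j)
    rw [hzo i j hij, sub_zero] at this
    rw [sub_zero]
    linarith
  refine ⟨ho, fun F => ?_⟩
  have hZ := CProj.sum hz hzo F
  have hF := CProj.sum hf ho F
  have hFm := (sum_proj (fun i => (hf i).proj) ho F).2
  have hZm := (sum_proj (fun i => (hz i).proj) hzo F).2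
  obtain ⟨g, hg, hgd⟩ := exists_partner hc hγ0 hγ hZ
  have hgi : ∀ i ∈ F, g * f i = f i := fun i hi => by
    refine (hg.mul (hf i)).eq_of_near (hf i) ?_
    have h1 := norm_proj_mul_sub_le (hf i).proj hZ.proj hgd (hd i)
    rw [hZm i hi] at h1
    have := norm_sub_le_norm_sub_add_norm_sub (g * f i) (z i) (f i)
    have h3 := hd i
    rw [norm_sub_rev] at h3
    linarith
  have hgF : g * (∑ i ∈ F, f i) = ∑ i ∈ F, f i := by
    rw [Finset.mul_sum]; exact Finset.sum_congr rfl hgi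
  set d := g * (1 - ∑ i ∈ F, f i) with hdd
  have hdp : CProj N d := hg.mul hF.one_sub
  obtain ⟨e, he, hed⟩ := exists_partner (M := N) (N := M) ⟨hc.2, hc.1⟩ hγ0 hγ hdp
  have hei : ∀ i ∈ F, e * z i = 0 := fun i hi => by
    refine (he.mul (hz i)).eq_of_near (CProj.zero M) ?_
    have h3 := hd i
    rw [norm_sub_rev] at h3
    have h1 := norm_proj_mul_sub_le (hz i).proj hdp.proj hed h3
    rw [show d * f i = 0 by
      rw [hdd, mul_assoc, sub_mul, one_mul, hFm i hi, sub_self, mul_zero], sub_zero] at h1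
    rw [sub_zero]
    linarith
  have heZ : e * (∑ i ∈ F, z i) = 0 := by rw [Finset.mul_sum]; exact Finset.sum_eq_zero hei
  have hd0 : d = 0 := by
    refine hdp.eq_of_near (CProj.zero N) ?_
    rw [sub_zero]
    have h3 := hgd
    rw [norm_sub_rev] at h3
    have h1 := norm_proj_mul_sub_le hZ.proj hdp.proj hed h3
    rw [heZ, zero_sub, norm_neg, show d * g = d by
      rw [hdd, ← hg.comm _ hdp.mem, hdd, ← mul_assoc, hg.proj.isIdempotentElem.eq]] at h1
    linarith
  rw [hdd, mul_sub, mul_one, hgF, sub_eq_zero] at hd0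
  rwa [← hd0]

/-- One unitary carries an orthogonal total family of central projections into the centre. -/
theorem exists_central_move (hc : Lit.IsClose H M N γ) (hγ0 : 0 ≤ γ) (hγ : γ ≤ 1 / 100000)
    {z : ι → (H →L[ℂ] H)} (hz : ∀ i, CProj M (z i)) (hB : Blocks z) :
    ∃ v : unitary (H →L[ℂ] H), ‖(v : H →L[ℂ] H) - 1‖ ≤ 12800 * γ ∧
      ∀ i, CProj N ((v : H →L[ℂ] H) * z i * star (v : H →L[ℂ] H)) := by
  classical
  have hγ' : γ ≤ 1 / 10000 := by linarith
  choose f hf hd using fun i => exists_partner hc hγ0 hγ' (hz i)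
  obtain ⟨hfo, hsum⟩ := partner_sum hc hγ0 hγ' hz hB.orth hf hd
  set B : Finset ι → (H →L[ℂ] H) := fun F => (∑ i ∈ F, f i * z i) - ∑ i ∈ F, z i
  have hBn : ∀ F, ‖B F‖ ≤ 1600 * γ := by
    intro F
    obtain ⟨-, e1⟩ := powerset_identity f z F
    obtain ⟨-, e2⟩ := powerset_identity z z F
    have hzz : ∑ i ∈ F, z i * z i = ∑ i ∈ F, z i :=
      Finset.sum_congr rfl fun i _ => (hz i).proj.isIdempotentElem.eq
    have hZ := sum_proj (fun i => (hz i).proj) hB.orth
    have e3 : (4 : H →L[ℂ] H) * ∑ S ∈ F.powerset, ((∑ i ∈ S, f i) - ∑ i ∈ S, z i) * ∑ i ∈ S, z i =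
        2 ^ F.card * (B F + ((∑ i ∈ F, f i) - ∑ i ∈ F, z i) * ∑ i ∈ F, z i) := by
      simp only [sub_mul, Finset.sum_sub_distrib, mul_sub, e1, e2, hzz, B]
      noncomm_ring
    have hb : ∀ S : Finset ι, ‖((∑ i ∈ S, f i) - ∑ i ∈ S, z i) * ∑ i ∈ S, z i‖ ≤ 320 * γ :=
      fun S => (norm_mul_le _ _).trans
        ((mul_le_of_le_one_right (norm_nonneg _) (hZ S).1.norm_le).trans (hsum S))
    set P : ℂ := 2 ^ F.card with hP
    have hP0 : P ≠ 0 := pow_ne_zero _ two_ne_zero
    have e4 : B F = P⁻¹ • ((4 : ℂ) •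
        ∑ S ∈ F.powerset, ((∑ i ∈ S, f i) - ∑ i ∈ S, z i) * ∑ i ∈ S, z i) -
        ((∑ i ∈ F, f i) - ∑ i ∈ F, z i) * ∑ i ∈ F, z i := by
      have h4 : ∀ w : H →L[ℂ] H, (4 : ℂ) • w = (4 : H →L[ℂ] H) * w := fun w => by
        rw [Algebra.smul_def, map_ofNat]
      have h2 : ∀ w : H →L[ℂ] H, P • w = (2 : H →L[ℂ] H) ^ F.card * w := fun w => by
        rw [Algebra.smul_def, hP, map_pow, map_ofNat]
      rw [h4, e3, ← h2, smul_smul, inv_mul_cancel₀ hP0, one_smul, add_sub_cancel_right]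
    rw [e4]
    refine (norm_sub_le _ _).trans ?_
    rw [norm_smul, norm_smul, hP, norm_inv, norm_pow]
    have h5 : ‖∑ S ∈ F.powerset, ((∑ i ∈ S, f i) - ∑ i ∈ S, z i) * ∑ i ∈ S, z i‖ ≤
        2 ^ F.card * (320 * γ) := by
      refine (norm_sum_le _ _).trans ((Finset.sum_le_sum fun S _ => hb S).trans_eq ?_)
      rw [Finset.sum_const, Finset.card_powerset, nsmul_eq_mul]
      norm_num
    have h6 : ‖(2 : ℂ)‖ = 2 := by norm_num
    have h7 : ‖(4 : ℂ)‖ = 4 := by norm_num
    rw [h6, h7]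
    have h8 : ((2 : ℝ) ^ F.card)⁻¹ * (4 * (2 ^ F.card * (320 * γ))) = 1280 * γ := by
      field_simp
      ring
    have := hb F
    have := mul_le_mul_of_nonneg_left (mul_le_mul_of_nonneg_left h5 (by norm_num : (0 : ℝ) ≤ 4))
      (by positivity : (0 : ℝ) ≤ ((2 : ℝ) ^ F.card)⁻¹)
    linarith
  obtain ⟨E, hE, hlim⟩ := exists_stage_limit B (by positivity) hBn
  set T := 1 + E with hT
  have hTz : ∀ i, T * z i = f i * z i := fun i => by
    have h := hlim i (z i) (f i * z i - z i) fun F hi => by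
      simp only [B, sub_mul, Finset.sum_mul]
      rw [Finset.sum_eq_single i, Finset.sum_eq_single i, mul_assoc,
        (hz i).proj.isIdempotentElem.eq]
      · exact fun k _ hk => hB.orth k i hk
      · exact fun hn => absurd hi hn
      · exact fun k _ hk => by rw [mul_assoc, hB.orth k i hk, mul_zero]
      · exact fun hn => absurd hi hn
    rw [hT, add_mul, one_mul, h, add_sub_cancel]
  have hfT : ∀ j, f j * T = T * z j := fun j => hB.ext fun i => by
    rw [mul_assoc, hTz, mul_assoc]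
    by_cases h : j = i
    · subst h
      rw [← mul_assoc, (hf j).proj.isIdempotentElem.eq, (hz j).proj.isIdempotentElem.eq, hTz]
    · rw [← mul_assoc, hfo j i h, zero_mul, hB.orth j i h, mul_zero]
  have hT1 : ‖T - 1‖ ≤ 1600 * γ := by rw [hT, add_sub_cancel_left]; exact hE
  obtain ⟨u, hu, hu1, hue⟩ := polar_near (δ := 1600 * γ) (by linarith) hT1
  refine ⟨⟨u, hu⟩, hu1.trans_eq (by ring), fun i => ?_⟩
  have e : f i = u * z i * star u := by
    refine hue (z i) (f i) (hfT i) ?_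
    have hs : z i * star T = star T * f i := by
      have := congrArg star (hfT i)
      rw [star_mul, star_mul, (hf i).proj.isSelfAdjoint.star_eq,
        (hz i).proj.isSelfAdjoint.star_eq] at this
      exact this.symm
    show star T * T * z i = z i * (star T * T)
    rw [mul_assoc, ← hfT i, ← mul_assoc, ← hs, mul_assoc]
  exact e ▸ hf i

end Vale.Agent.P096.Semi
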