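import Vale.Agent.P096.Lit.Sanity
import Vale.Agent.P096.Semi.Reduce

/-!
P096: algebras with a faithful normal tracial state are semifinite in the sense of the statement,
so its hypotheses are satisfiable.
-/

namespace Vale.Agent.P096.Semi

open Vale.Agent.P096.Two
open scoped InnerProductSpace

universe u

variable {H : Type u} [NormedAddCommGroup H] [InnerProductSpace ℂ H] [CompleteSpace H]

/-- A finite algebra qualifies, with the whole space as corner. -/
theorem isSemifinite_of_finite {M : VonNeumannAlgebra H}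
    (h : ∃ ξ : ℕ → H, Lit.IsFaithfulTrace H M ξ) : IsSemifinite H M := by
  obtain ⟨ξ, h1, h2, h3⟩ := h
  let K : Submodule ℂ H := ⊤
  haveI : CompleteSpace K := isClosed_univ.completeSpace_coe
  have hP : K.starProjection = 1 := ContinuousLinearMap.ext fun v =>
    Submodule.starProjection_eq_self_iff.2 Submodule.mem_top
  have hPM : K.starProjection ∈ M := hP ▸ one_mem M
  have hA := isCorner_corner K M hPM
  have hc : ∀ (m : H →L[ℂ] H) (k : K), (cmp K m k : H) = m k := fun m k => by
    rw [cmp_apply, hP, one_apply_eq_self]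
  refine isSemifinite_of_full hPM (fun a _ e => by rwa [hP, mul_one] at e) hA
    ⟨fun n => ⟨ξ n, Submodule.mem_top⟩, h1, ?_, ?_⟩
  · intro x hx y hy
    obtain ⟨m, hm, rfl⟩ := (hA x).1 hx
    obtain ⟨n, hn, rfl⟩ := (hA y).1 hy
    show ∑' j, ⟪_, cmp K m (cmp K n _)⟫_ℂ = ∑' j, ⟪_, cmp K n (cmp K m _)⟫_ℂ
    simpa only [Submodule.coe_inner, hc] using h2 m hm n hn
  · intro x hx h0 v
    obtain ⟨m, hm, rfl⟩ := (hA x).1 hx
    exact Subtype.ext ((hc m v).trans (h3 m hm (fun n => (hc m _).symm.trans
      (congrArg Subtype.val (h0 n))) v))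

/-- The hypotheses of the statement are satisfiable. -/
theorem exists_instance :
    ∃ (H : Type) (_ : NormedAddCommGroup H) (_ : InnerProductSpace ℂ H) (_ : CompleteSpace H)
      (M : VonNeumannAlgebra H), IsSemifinite H M := by
  obtain ⟨H, i1, i2, i3, M, ⟨-, -, h⟩, -⟩ := Lit.exists_instance
  exact ⟨H, i1, i2, i3, M, isSemifinite_of_finite h⟩

end Vale.Agent.P096.Semi
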